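import Crest.Agent.R82.Chain

/-!
A Monge-optimal map from a uniform source is a subgradient selection of a convex potential:
swap small balls around Lebesgue points to get cyclical monotonicity, then use Rockafellar's
construction.
-/

set_option autoImplicit false
set_option linter.unusedSectionVars false

namespace Crest.Agent.R82

open MeasureTheory Set Filter Topology
open scoped RealInnerProductSpace NNReal ENNReal

variable {E : Type*} [NormedAddCommGroup E] [InnerProductSpace ℝ E] [MeasurableSpace E]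
  [BorelSpace E] [FiniteDimensional ℝ E]

lemma restrict_eq_add_sum (vol : Measure E) {K : Set E} (hK : MeasurableSet K) {ι : Type*}
    [Fintype ι] {B : ι → Set E} (hB : ∀ i, MeasurableSet (B i))
    (hd : Pairwise (Function.onFun Disjoint B)) (hBK : ∀ i, B i ⊆ K) :
    vol.restrict K = vol.restrict (K \ ⋃ i, B i) + ∑ i, vol.restrict (B i) := by
  rw [← Measure.sum_fintype, ← Measure.restrict_iUnion hd hB,
    ← Measure.restrict_union disjoint_sdiff_left (MeasurableSet.iUnion hB),
    sdiff_union_of_subset (iUnion_subset hBK)]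

lemma swap_ineq (vol : Measure E) [vol.IsAddHaarMeasure] {K : Set E} (hK : IsCompact K)
    {T : E → E} {R : ℝ} (hT : Measurable T) (hTb : ∀ᵐ x ∂(vol.restrict K), ‖T x‖ ≤ R)
    (hopt : ∀ τ : E → E, Measurable τ → (vol.restrict K).map τ = vol.restrict K →
      ∫ x in K, ⟪x, T (τ x)⟫ ∂vol ≤ ∫ x in K, ⟪x, T x⟫ ∂vol)
    {ι : Type*} [Fintype ι] (c : ι → E) (r : ℝ)
    (hd : Pairwise (Function.onFun Disjoint fun i => Metric.closedBall (c i) r))
    (hBK : ∀ i, Metric.closedBall (c i) r ⊆ K) (σ : Equiv.Perm ι) :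
    ∑ j, ⟪c (σ j) - c j, ∫ x in Metric.closedBall (c j) r, T x ∂vol⟫ ≤ 0 := by
  classical
  have hKm := hK.measurableSet
  have hfin : IsFiniteMeasure (vol.restrict K) := isFiniteMeasure_restrict.mpr hK.measure_lt_top.ne
  set B : ι → Set E := fun i => Metric.closedBall (c i) r with hBdef
  have hB : ∀ i, MeasurableSet (B i) := fun i => Metric.isClosed_closedBall.measurableSet
  set v : ι → E := fun j => c j - c (σ j) with hv
  set τ : E → E := fun x => x + ∑ j, (B (σ j)).indicator (fun _ => v j) x with hτ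
  have hτm : Measurable τ := by
    apply measurable_id.add
    apply Finset.measurable_fun_sum
    intro j _
    exact measurable_const.indicator (hB _)
  have hd' : Pairwise (Function.onFun Disjoint fun j => B (σ j)) :=
    fun i j hij => hd (σ.injective.ne hij)
  have hU : (⋃ j, B (σ j)) = ⋃ j, B j := σ.surjective.iUnion_comp B
  have hτ1 : ∀ x, x ∉ ⋃ j, B j → τ x = x := by
    intro x hx
    simp only [mem_iUnion, not_exists] at hx
    simp only [hτ]
    rw [Finset.sum_eq_zero fun j _ => indicator_of_notMem (hx _) _, add_zero]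
  have hτ2 : ∀ j, ∀ x ∈ B (σ j), τ x = x + v j := by
    intro j x hx
    simp only [hτ]
    rw [Finset.sum_eq_single j]
    · rw [indicator_of_mem hx]
    · intro i _ hij
      exact indicator_of_notMem (fun h => (Set.disjoint_left.mp (hd' hij)) h hx) _
    · simp
  have hpre : ∀ j, (fun x => x + v j) ⁻¹' B j = B (σ j) := by
    intro j
    ext x
    simp only [hBdef, hv, mem_preimage, Metric.mem_closedBall, dist_eq_norm]
    rw [show x + (c j - c (σ j)) - c j = x - c (σ j) by abel]
  have dec1 := restrict_eq_add_sum vol hKm hB hd hBK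
  have dec2 := restrict_eq_add_sum vol hKm (fun j => hB (σ j)) hd' (fun j => hBK (σ j))
  rw [hU] at dec2
  have hUm : MeasurableSet (K \ ⋃ j, B j) := hKm.diff (MeasurableSet.iUnion hB)
  have hmap : (vol.restrict K).map τ = vol.restrict K := by
    conv_lhs => rw [dec2]
    rw [Measure.map_add _ _ hτm, Measure.map_finset_sum' hτm.aemeasurable, dec1]
    congr 1
    · rw [Measure.map_congr (g := id), Measure.map_id]
      filter_upwards [ae_restrict_mem hUm] with x hx using hτ1 x hx.2
    · apply Finset.sum_congr rfl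
      intro j _
      rw [Measure.map_congr (g := fun x => x + v j), ← hpre j,
        ← Measure.restrict_map (measurable_add_const _) (hB j), map_add_right_eq_self]
      filter_upwards [ae_restrict_mem (hB (σ j))] with x hx using hτ2 j x hx
  have hmp : MeasurePreserving τ (vol.restrict K) (vol.restrict K) := ⟨hτm, hmap⟩
  obtain ⟨a, ha⟩ := hK.isBounded.exists_norm_le
  have hTi : Integrable T (vol.restrict K) := Integrable.of_bound hT.aestronglyMeasurable R hTb
  have hTτb : ∀ᵐ x ∂(vol.restrict K), ‖T (τ x)‖ ≤ R := hmp.quasiMeasurePreserving.ae hTb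
  have hτK : ∀ᵐ x ∂(vol.restrict K), τ x ∈ K :=
    hmp.quasiMeasurePreserving.ae (ae_restrict_mem hKm)
  have i1 : Integrable (fun x => ⟪x, T (τ x)⟫) (vol.restrict K) := by
    refine Integrable.of_bound (measurable_id.inner (hT.comp hτm)).aestronglyMeasurable (a * R) ?_
    filter_upwards [hTτb, ae_restrict_mem hKm] with x hx hx'
    exact (norm_inner_le_norm _ _).trans
      (mul_le_mul (ha x hx') hx (norm_nonneg _) ((norm_nonneg _).trans (ha x hx')))
  have i2 : Integrable (fun x => ⟪τ x, T (τ x)⟫) (vol.restrict K) := by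
    refine Integrable.of_bound (hτm.inner (hT.comp hτm)).aestronglyMeasurable (a * R) ?_
    filter_upwards [hTτb, hτK] with x hx hx'
    exact (norm_inner_le_norm _ _).trans
      (mul_le_mul (ha _ hx') hx (norm_nonneg _) ((norm_nonneg _).trans (ha _ hx')))
  have e1 : ∫ x in K, ⟪x, T x⟫ ∂vol = ∫ x in K, ⟪τ x, T (τ x)⟫ ∂vol := by
    conv_lhs => rw [← hmap]
    exact integral_map hτm.aemeasurable (measurable_id.inner hT).aestronglyMeasurable
  have h1 := hopt τ hτm hmap
  rw [e1, ← sub_nonneg, ← integral_sub i2 i1] at h1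
  have i3 : Integrable (fun x => ⟪τ x, T (τ x)⟫ - ⟪x, T (τ x)⟫) (vol.restrict K) := i2.sub i1
  have i4 : ∀ j, Integrable (fun x => ⟪τ x, T (τ x)⟫ - ⟪x, T (τ x)⟫) (vol.restrict (B (σ j))) :=
    fun j => i3.mono_measure (Measure.restrict_mono (hBK _) le_rfl)
  rw [dec2, integral_add_measure (i3.mono_measure (Measure.restrict_mono sdiff_subset le_rfl))
    (integrable_finsetSum_measure.mpr fun j _ => i4 j),
    integral_finsetSum_measure fun j _ => i4 j] at h1
  have e2 : ∫ x in K \ ⋃ j, B j, (⟪τ x, T (τ x)⟫ - ⟪x, T (τ x)⟫) ∂vol = 0 := by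
    rw [setIntegral_congr_fun hUm (g := fun _ => 0)]
    · simp
    · intro x hx
      simp [hτ1 x hx.2]
  have e3 : ∀ j, ∫ x in B (σ j), (⟪τ x, T (τ x)⟫ - ⟪x, T (τ x)⟫) ∂vol
      = -⟪c (σ j) - c j, ∫ x in B j, T x ∂vol⟫ := by
    intro j
    rw [setIntegral_congr_fun (hB _) (g := fun x => ⟪v j, T (x + v j)⟫), ← hpre j,
      (measurePreserving_add_right vol (v j)).setIntegral_preimage_emb
        (measurableEmbedding_addRight (v j)) (fun y => ⟪v j, T y⟫) (B j),
      integral_inner (hTi.mono_measure (Measure.restrict_mono (hBK _) le_rfl)),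
      ← inner_neg_left, neg_sub]
    intro x hx
    simp only [hτ2 j x hx, inner_add_left]
    ring
  simp only [e2, e3, zero_add, Finset.sum_neg_distrib] at h1
  linarith

lemma rockafellar {Γ : Set E} {T : E → E} {R : ℝ} (hne : Γ.Nonempty) (hR : ∀ x ∈ Γ, ‖T x‖ ≤ R)
    (hcyc : ∀ (n : ℕ) (x : Fin n → E), (∀ i, x i ∈ Γ) → ∀ σ : Equiv.Perm (Fin n),
      ∑ j, ⟪x (σ j) - x j, T (x j)⟫ ≤ 0) :
    ∃ φ : E → ℝ, (∀ x x', φ x - φ x' ≤ R * ‖x - x'‖) ∧
      ∀ x ∈ Γ, ∀ x', φ x + ⟪x' - x, T x⟫ ≤ φ x' := by
  classical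
  obtain ⟨x₀, hx₀⟩ := hne
  let Ch := {p : ℕ × (ℕ → E) // p.2 0 = x₀ ∧ ∀ k, p.2 k ∈ Γ}
  have hCh : Nonempty Ch := ⟨⟨(0, fun _ => x₀), rfl, fun _ => hx₀⟩⟩
  let val : Ch → E → ℝ := fun p y =>
    ∑ k ∈ Finset.range p.1.1, ⟪p.1.2 (k + 1) - p.1.2 k, T (p.1.2 k)⟫
      + ⟪y - p.1.2 p.1.1, T (p.1.2 p.1.1)⟫
  have hlip : ∀ p y y', val p y - val p y' ≤ R * ‖y - y'‖ := by
    intro p y y'
    have h1 : val p y - val p y' = ⟪y - y', T (p.1.2 p.1.1)⟫ := by
      simp only [val, inner_sub_left]; ring
    rw [h1]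
    refine (real_inner_le_norm _ _).trans ?_
    rw [mul_comm]
    gcongr
    exact hR _ (p.2.2 _)
  have h0 : ∀ p, val p x₀ ≤ 0 := by
    rintro ⟨⟨n, x⟩, hx0, hx⟩
    have := hcyc (n + 1) (fun i => x i) (fun i => hx i) (finRotate (n + 1))
    rw [Fin.sum_univ_castSucc, finRotate_last] at this
    simp only [val]
    rw [Finset.sum_range]
    simp only at hx0
    have e : ∀ k : Fin n, ((finRotate (n + 1) k.castSucc : Fin (n + 1)) : ℕ) = k + 1 := by
      intro k
      have := finRotate_of_lt k.2
      exact congrArg Fin.val this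
    simp only [e] at this
    simpa [hx0] using this
  have hbdd : ∀ y, BddAbove (range fun p => val p y) := by
    intro y
    refine ⟨R * ‖y - x₀‖, ?_⟩
    rintro _ ⟨p, rfl⟩
    linarith [hlip p y x₀, h0 p]
  refine ⟨fun y => ⨆ p, val p y, ?_, ?_⟩
  · intro y y'
    rw [sub_le_iff_le_add]
    apply ciSup_le
    intro p
    linarith [hlip p y y', le_ciSup (hbdd y') p]
  · intro x hx y
    rw [← le_sub_iff_add_le]
    apply ciSup_le
    rintro ⟨⟨n, z⟩, hz0, hz⟩
    let q : Ch := ⟨(n + 1, Function.update z (n + 1) x), by simpa using hz0, fun k => by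
      by_cases hk : k = n + 1
      · simp [hk, hx]
      · simpa [hk] using hz k⟩
    have h1 := le_ciSup (hbdd y) q
    have h2 : val q y = val ⟨⟨n, z⟩, hz0, hz⟩ x + ⟪y - x, T x⟫ := by
      simp only [val, q, Finset.sum_range_succ, Function.update_self]
      congr 2
      · apply Finset.sum_congr rfl
        intro k hk
        have hk' := Finset.mem_range.mp hk
        rw [Function.update_of_ne (by omega), Function.update_of_ne (by omega)]
      · rw [Function.update_of_ne (by omega)]
    linarith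

theorem exists_pot (vol : Measure E) [vol.IsAddHaarMeasure] {K : Set E} (hK : IsCompact K)
    (hKv : Convex ℝ K) (hKi : (interior K).Nonempty) {e : E} (he : ‖e‖ = 1)
    {T : E → E} {R : ℝ} (hR : 0 ≤ R) (hT : Measurable T)
    (hTb : ∀ᵐ x ∂(vol.restrict K), ‖T x‖ ≤ R)
    (hopt : ∀ τ : E → E, Measurable τ → (vol.restrict K).map τ = vol.restrict K →
      ∫ x in K, ⟪x, T (τ x)⟫ ∂vol ≤ ∫ x in K, ⟪x, T x⟫ ∂vol) :
    ∃ φ, Pot (vol.restrict K) R T φ := by
  have hKm := hK.measurableSet
  have hfin : IsFiniteMeasure (vol.restrict K) := isFiniteMeasure_restrict.mpr hK.measure_lt_top.ne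
  have hTi : Integrable T (vol.restrict K) := Integrable.of_bound hT.aestronglyMeasurable R hTb
  set T' := K.indicator T with hT'
  have hT'i : Integrable T' vol := (integrable_indicator_iff hKm).mpr hTi
  set Γ := {x | x ∈ interior K ∧ ‖T x‖ ≤ R ∧ ∀ n : ℕ, ∀ w : ℝ → E,
    (∀ᶠ r in 𝓝[>] (0 : ℝ), x ∈ Metric.closedBall (w r) (n * r)) →
      Tendsto (fun r => ⨍ y in Metric.closedBall (w r) r, T' y ∂vol) (𝓝[>] 0) (𝓝 (T' x))} with hΓ
  have hΓae : ∀ᵐ x ∂(vol.restrict K), x ∈ Γ := by
    have h1 : ∀ᵐ x ∂(vol.restrict K), x ∈ interior K := by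
      have h2 : ∀ᵐ x ∂vol, x ∉ frontier K :=
        measure_eq_zero_iff_ae_notMem.mp (hKv.addHaar_frontier vol)
      filter_upwards [ae_restrict_of_ae h2, ae_restrict_mem hKm] with x hx hx'
      by_contra h
      exact hx ⟨subset_closure hx', h⟩
    have h3 : ∀ᵐ x ∂vol, ∀ n : ℕ, ∀ w : ℝ → E,
        (∀ᶠ r in 𝓝[>] (0 : ℝ), x ∈ Metric.closedBall (w r) (n * r)) →
        Tendsto (fun r => ⨍ y in Metric.closedBall (w r) r, T' y ∂vol) (𝓝[>] 0) (𝓝 (T' x)) := by
      rw [ae_all_iff]
      intro n
      filter_upwards [IsUnifLocDoublingMeasure.ae_tendsto_average vol hT'i.locallyIntegrable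
        (n : ℝ)] with x hx w hw
      exact hx w id tendsto_id hw
    filter_upwards [h1, hTb, ae_restrict_of_ae h3] with x a b c using ⟨a, b, c⟩
  have hpos : vol.restrict K ≠ 0 := by
    rw [Ne, Measure.restrict_eq_zero]
    exact ((isOpen_interior.measure_pos vol hKi).trans_le (measure_mono interior_subset)).ne'
  have hne : Γ.Nonempty := by
    have : (ae (vol.restrict K)).NeBot := ae_neBot.mpr hpos
    exact hΓae.exists
  have hcyc : ∀ (n : ℕ) (x : Fin n → E), (∀ i, x i ∈ Γ) → ∀ σ : Equiv.Perm (Fin n),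
      ∑ j, ⟪x (σ j) - x j, T (x j)⟫ ≤ 0 := by
    intro n x hx σ
    set c : ℝ → Fin n → E := fun r i => x i + (3 * (i : ℝ) * r) • e with hc
    have hcx : ∀ r, 0 < r → ∀ i, ‖c r i - x i‖ = 3 * (i : ℝ) * r := by
      intro r hr i
      simp only [hc, add_sub_cancel_left, norm_smul, he, mul_one]
      exact Real.norm_of_nonneg (by positivity)
    have hclim : ∀ i, Tendsto (fun r => c r i) (𝓝[>] 0) (𝓝 (x i)) := by
      intro i
      apply Tendsto.mono_left _ nhdsWithin_le_nhds
      have : Continuous fun r => c r i := by simp only [hc]; fun_prop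
      simpa [hc] using this.tendsto 0
    have hav : ∀ i, Tendsto (fun r => ⨍ y in Metric.closedBall (c r i) r, T' y ∂vol) (𝓝[>] 0)
        (𝓝 (T (x i))) := by
      intro i
      have := (hx i).2.2 (3 * i) (fun r => c r i) (by
        filter_upwards [self_mem_nhdsWithin] with r hr
        rw [Metric.mem_closedBall, dist_comm, dist_eq_norm, hcx r hr]
        push_cast; exact le_rfl)
      rwa [hT', indicator_of_mem (interior_subset (hx i).1)] at this
    have hlim : Tendsto (fun r => ∑ j, ⟪c r (σ j) - c r j,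
        ⨍ y in Metric.closedBall (c r j) r, T' y ∂vol⟫) (𝓝[>] 0)
        (𝓝 (∑ j, ⟪x (σ j) - x j, T (x j)⟫)) :=
      tendsto_finsetSum _ fun j _ => ((hclim _).sub (hclim _)).inner (hav j)
    apply le_of_tendsto hlim
    have hsub : ∀ᶠ r in 𝓝[>] (0 : ℝ), ∀ i, Metric.closedBall (c r i) r ⊆ K := by
      rw [eventually_all]
      intro i
      obtain ⟨ε, hε, hεK⟩ := Metric.isOpen_iff.mp isOpen_interior _ (hx i).1
      have h1 : ∀ᶠ r in 𝓝[>] (0 : ℝ), r < ε / (3 * i + 1) :=
        nhdsWithin_le_nhds (gt_mem_nhds (by positivity))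
      filter_upwards [h1, self_mem_nhdsWithin] with r hr hr0 y hy
      apply interior_subset
      apply hεK
      rw [Metric.mem_ball]
      rw [lt_div_iff₀ (by positivity)] at hr
      have h2 := dist_triangle y (c r i) (x i)
      rw [dist_eq_norm (c r i), hcx r hr0] at h2
      have h3 : dist y (c r i) ≤ r := hy
      linarith
    have hdis : ∀ᶠ r in 𝓝[>] (0 : ℝ),
        Pairwise (Function.onFun Disjoint fun i => Metric.closedBall (c r i) r) := by
      have : ∀ᶠ r in 𝓝[>] (0 : ℝ), ∀ i j, i ≠ j → r + r < dist (c r i) (c r j) := by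
        simp only [eventually_all]
        intro i j hij
        by_cases hxij : x i = x j
        · filter_upwards [self_mem_nhdsWithin] with r hr
          have hr0 : 0 < r := hr
          have h1 : c r i - c r j = (3 * r * ((i : ℝ) - j)) • e := by
            simp only [hc, hxij, add_sub_add_left_eq_sub, ← sub_smul]
            congr 1; ring
          rw [dist_eq_norm, h1, norm_smul, he, mul_one, Real.norm_eq_abs, abs_mul,
            abs_of_pos (by positivity)]
          have h2 : (1 : ℝ) ≤ |((i : ℕ) : ℝ) - (j : ℕ)| := by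
            have h3 : (i : ℕ) ≠ j := fun h => hij (Fin.ext h)
            have h4 : (1 : ℤ) ≤ |((i : ℕ) : ℤ) - (j : ℕ)| :=
              Int.one_le_abs (by omega)
            exact_mod_cast h4
          nlinarith
        · have h1 : Tendsto (fun r => dist (c r i) (c r j) - (r + r)) (𝓝[>] 0)
              (𝓝 (dist (x i) (x j) - (0 + 0))) :=
            ((hclim i).dist (hclim j)).sub
              ((tendsto_id.add tendsto_id).mono_left nhdsWithin_le_nhds)
          have h2 : 0 < dist (x i) (x j) - (0 + 0) := by simpa using hxij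
          filter_upwards [h1.eventually (lt_mem_nhds h2)] with r hr
          linarith
      filter_upwards [this] with r hr i j hij
      exact Metric.closedBall_disjoint_closedBall (hr i j hij)
    filter_upwards [hsub, hdis, self_mem_nhdsWithin] with r h1 h2 hr
    have h3 := swap_ineq vol hK hT hTb hopt (c r) r h2 h1 σ
    have h4 : ∀ j, ⨍ y in Metric.closedBall (c r j) r, T' y ∂vol
        = (vol.real (Metric.closedBall (0 : E) r))⁻¹ •
          ∫ y in Metric.closedBall (c r j) r, T y ∂vol := by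
      intro j
      rw [setAverage_eq, Measure.addHaar_real_closedBall_center]
      congr 1
      apply setIntegral_congr_fun Metric.isClosed_closedBall.measurableSet
      intro y hy
      exact indicator_of_mem (h1 j hy) _
    simp only [h4, inner_smul_right, ← Finset.mul_sum]
    exact mul_nonpos_of_nonneg_of_nonpos (inv_nonneg.mpr measureReal_nonneg) h3
  obtain ⟨φ, hφ1, hφ2⟩ := rockafellar hne (fun x hx => hx.2.1) hcyc
  exact ⟨φ, hR, hT, hφ1, hΓae.mono fun x hx => ⟨hx.2.1, hφ2 x hx⟩⟩

end Crest.Agent.R82
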