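import Crest.Agent.R82.Discr

/-!
Transport maps with a convex potential, and quantitative uniqueness of dual potentials.
-/

set_option autoImplicit false
set_option linter.unusedSectionVars false

namespace Crest.Agent.R82

open MeasureTheory Set
open scoped RealInnerProductSpace NNReal ENNReal

variable {E : Type*} [NormedAddCommGroup E] [InnerProductSpace ℝ E] [MeasurableSpace E]
  [BorelSpace E] [ProperSpace E]
variable {ρ : Measure E} {K : Set E} {a R : ℝ}

/-- `T` is a bounded measurable selection of the subdifferential of the Lipschitz function `φ`. -/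
structure Pot (ρ : Measure E) (R : ℝ) (T : E → E) (φ : E → ℝ) : Prop where
  R0 : 0 ≤ R
  meas : Measurable T
  lip : ∀ x x', φ x - φ x' ≤ R * ‖x - x'‖
  good : ∀ᵐ x ∂ρ, ‖T x‖ ≤ R ∧ ∀ x', φ x + ⟪x' - x, T x⟫ ≤ φ x'

variable {T : E → E} {φ : E → ℝ}

lemma Src.int_comp (hS : Src ρ K a) (hT : Measurable T) (hb : ∀ᵐ x ∂ρ, ‖T x‖ ≤ R)
    {F : E × E → ℝ} (hF : Continuous F) : Integrable (fun x => F (x, T x)) ρ := by
  have := hS.prob
  have hc : IsCompact (Metric.closedBall (0 : E) a ×ˢ Metric.closedBall (0 : E) R) :=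
    (isCompact_closedBall _ _).prod (isCompact_closedBall _ _)
  obtain ⟨C, hC⟩ := hc.exists_bound_of_continuousOn hF.continuousOn
  refine Integrable.of_bound (C := C)
    ((hF.measurable.comp (measurable_id.prodMk hT)).aestronglyMeasurable) ?_
  filter_upwards [hS.ae_mem, hb] with x hx hx'
  exact hC _ ⟨by simpa using hS.norm_le x hx, by simpa using hx'⟩

lemma Pot.bdd (hP : Pot ρ R T φ) : ∀ᵐ x ∂ρ, ‖T x‖ ≤ R := hP.good.mono fun _ h => h.1

/-- Homotheties centred at `x₀` distort `ρ` by a bounded factor. -/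
def Scal (ρ : Measure E) (x₀ : E) : Prop :=
  ∀ t : ℝ, 0 < t → t ≤ 1 → ∃ C : ℝ≥0, ρ.map (fun x => x₀ + t • (x - x₀)) ≤ C • ρ

lemma chain_bound (hS : Src ρ K a) {x₀ : E} (hx₀ : x₀ ∈ K) (hsc : Scal ρ x₀) (n : ℕ) (hn : 0 < n) :
    ∃ C : ℝ, 0 ≤ C ∧ ∀ (R : ℝ) (T : E → E) (φ θ χ : E → ℝ), Pot ρ R T φ →
      (∀ x x', θ x - θ x' ≤ R * ‖x - x'‖) → CT K a θ χ →
      ∫ x, |(φ x - θ x) - (φ x₀ - θ x₀)| ∂ρ
        ≤ 8 * R * a / n + C * ∫ x, (θ x + χ (T x) - ⟪x, T x⟫) ∂ρ := by
  have hprob := hS.prob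
  have hn' : (0 : ℝ) < n := by exact_mod_cast hn
  have h1 : ∀ k : ℕ, ∃ C : ℝ≥0, k < n →
      ρ.map (fun x => x₀ + (((k : ℝ) + 1) / n) • (x - x₀)) ≤ C • ρ := by
    intro k
    by_cases hk : k < n
    · obtain ⟨C, hC⟩ := hsc (((k : ℝ) + 1) / n) (by positivity) (by
        rw [div_le_one hn']; exact_mod_cast hk)
      exact ⟨C, fun _ => hC⟩
    · exact ⟨0, fun h => absurd h hk⟩
  choose C hC using h1
  refine ⟨2 * ∑ k ∈ Finset.range n, (C k : ℝ), by positivity, ?_⟩
  intro R T φ θ χ hP hθ hχ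
  have hR := hP.R0
  have ha := hS.a_pos
  set G := fun x => θ x + χ (T x) - ⟪x, T x⟫ with hG
  set f := fun x => φ x - θ x with hf
  set P : ℕ → E → E := fun k x => x₀ + (((k : ℝ) + 1) / n) • (x - x₀) with hPdef
  have hPm : ∀ k, Measurable (P k) := fun k => by
    apply Continuous.measurable; simp only [hPdef]; fun_prop
  have cθ := continuous_of_lip hθ
  have cφ := continuous_of_lip hP.lip
  have cχ := continuous_of_lip hχ.lip
  have hGi : Integrable G ρ :=
    hS.int_comp hP.meas hP.bdd (F := fun p => θ p.1 + χ p.2 - ⟪p.1, p.2⟫) (by fun_prop)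
  have hG0 : ∀ x ∈ K, 0 ≤ G x := fun x hx => by
    have := hχ.ge x hx (T x)
    simp only [hG]; linarith
  have hG0' : 0 ≤ᵐ[ρ] G := hS.ae_mem.mono fun x hx => hG0 x hx
  have hac : ∀ k, k < n → ρ.map (P k) ≪ ρ := fun k hk =>
    (Measure.absolutelyContinuous_of_le (hC k hk)).trans (Measure.smul_absolutelyContinuous)
  have hgood : ∀ᵐ x ∂ρ, ∀ k, k < n → (P k x ∈ K ∧ ‖T (P k x)‖ ≤ R ∧
      ∀ x', φ (P k x) + ⟪x' - P k x, T (P k x)⟫ ≤ φ x') := by
    rw [ae_all_iff]
    intro k
    by_cases hk : k < n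
    · have := ae_of_ae_map (hPm k).aemeasurable ((hac k hk).ae_le (hS.ae_mem.and hP.good))
      filter_upwards [this] with x hx _ using hx
    · exact Filter.Eventually.of_forall fun x h => absurd h hk
  have hGk : ∀ k, k < n → Integrable (fun x => G (P k x)) ρ ∧
      ∫ x, G (P k x) ∂ρ ≤ C k * ∫ x, G x ∂ρ := by
    intro k hk
    have i1 : Integrable G (C k • ρ) := hGi.smul_measure_nnreal
    have i2 : Integrable G (ρ.map (P k)) := i1.mono_measure (hC k hk)
    refine ⟨(integrable_map_measure i2.1 (hPm k).aemeasurable).mp i2, ?_⟩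
    rw [← integral_map (hPm k).aemeasurable i2.1]
    refine (integral_mono_measure (hC k hk) ?_ i1).trans ?_
    · exact (Measure.smul_absolutelyContinuous).ae_le hG0'
    · rw [integral_smul_nnreal_measure]
      exact le_of_eq rfl
  have hpt : ∀ᵐ x ∂ρ, |f x - f x₀| ≤ 8 * R * a / n + 2 * ∑ k ∈ Finset.range n, G (P k x) := by
    filter_upwards [hgood, hS.ae_mem] with x hx hxK
    set e := (1 / (n : ℝ)) • (x - x₀) with he
    have he' : ‖e‖ ≤ 2 * a / n := by
      rw [he, norm_smul, Real.norm_of_nonneg (by positivity)]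
      have := norm_sub_le x x₀
      have h1 := hS.norm_le x hxK
      have h2 := hS.norm_le x₀ hx₀
      calc 1 / (n : ℝ) * ‖x - x₀‖ ≤ 1 / (n : ℝ) * (2 * a) := by gcongr; linarith
        _ = 2 * a / n := by ring
    have hstep : ∀ k, P (k + 1) x - P k x = e := by
      intro k
      simp only [hPdef, he]
      rw [add_sub_add_left_eq_sub, ← sub_smul]
      congr 1; push_cast; ring
    have two : ∀ u w : E, w ∈ K → (∀ x', φ w + ⟪x' - w, T w⟫ ≤ φ x') →
        f w - f u ≤ ⟪w - u, T w - T u⟫ + G u := by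
      intro u w hw hgw
      have h1 := hgw u
      have h2 := hχ.ge w hw (T u)
      simp only [hf, hG, inner_sub_left, inner_sub_right] at h1 ⊢
      linarith
    have ind : ∀ j, j < n → |f (P j x) - f (P 0 x)| ≤ ⟪e, T (P j x) - T (P 0 x)⟫
        + 2 * ∑ k ∈ Finset.range (j + 1), G (P k x) - G (P j x) := by
      intro j
      induction j with
      | zero =>
        intro h0
        have := hG0 _ (hx 0 h0).1
        simp
        linarith
      | succ j ih =>
        intro hj
        have hj' : j < n := Nat.lt_of_succ_lt hj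
        have i1 := ih hj'
        have t1 := two (P j x) (P (j + 1) x) (hx _ hj).1 (hx _ hj).2.2
        have t2 := two (P (j + 1) x) (P j x) (hx _ hj').1 (hx _ hj').2.2
        have e2 : P j x - P (j + 1) x = -e := by rw [← hstep j]; abel
        rw [hstep] at t1
        rw [e2, inner_neg_left, ← inner_neg_right, neg_sub] at t2
        have g1 := hG0 _ (hx _ hj).1
        have g2 := hG0 _ (hx _ hj').1
        rw [Finset.sum_range_succ]
        simp only [inner_sub_right] at t1 t2 i1 ⊢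
        rw [abs_le] at i1 ⊢
        constructor <;> linarith [i1.1, i1.2]
    obtain ⟨j, rfl⟩ : ∃ j, n = j + 1 := ⟨n - 1, by omega⟩
    have i1 := ind j (Nat.lt_succ_self j)
    have hPj : P j x = x := by
      simp only [hPdef]
      push_cast
      rw [div_self (by positivity), one_smul]; abel
    have hP0 : P 0 x - x₀ = e := by
      simp only [hPdef, he]; simp
    have b1 : ⟪e, T (P j x) - T (P 0 x)⟫ ≤ ‖e‖ * (2 * R) := by
      refine (real_inner_le_norm _ _).trans ?_
      gcongr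
      have := norm_sub_le (T (P j x)) (T (P 0 x))
      linarith [(hx j (Nat.lt_succ_self j)).2.1, (hx 0 (Nat.succ_pos j)).2.1]
    have b2 : |f (P 0 x) - f x₀| ≤ ‖e‖ * (2 * R) := by
      have c1 := abs_sub_le_of_lip hP.lip (P 0 x) x₀
      have c2 := abs_sub_le_of_lip hθ (P 0 x) x₀
      rw [hP0] at c1 c2
      simp only [hf]
      rw [abs_le] at c1 c2 ⊢
      constructor <;> linarith [c1.1, c1.2, c2.1, c2.2]
    have b3 : ‖e‖ * (2 * R) ≤ 4 * R * a / ((j + 1 : ℕ) : ℝ) := by
      calc ‖e‖ * (2 * R) ≤ 2 * a / ((j + 1 : ℕ) : ℝ) * (2 * R) := by gcongr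
        _ = _ := by ring
    have g2 := hG0 _ (hx j (Nat.lt_succ_self j)).1
    have b4 : 8 * R * a / ((j + 1 : ℕ) : ℝ) = 2 * (4 * R * a / ((j + 1 : ℕ) : ℝ)) := by ring
    have b5 := abs_sub_le (f (P j x)) (f (P 0 x)) (f x₀)
    rw [hPj] at b5
    rw [hPj] at i1
    rw [hPj] at b1 g2
    linarith
  have hsumi : Integrable (fun x => ∑ k ∈ Finset.range n, G (P k x)) ρ :=
    integrable_finsetSum _ fun k hk => (hGk k (Finset.mem_range.mp hk)).1
  calc ∫ x, |f x - f x₀| ∂ρ
      ≤ ∫ x, (8 * R * a / n + 2 * ∑ k ∈ Finset.range n, G (P k x)) ∂ρ :=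
        integral_mono_ae (hS.int _ (by simp only [hf]; fun_prop))
          ((integrable_const _).add (hsumi.const_mul _)) hpt
    _ = 8 * R * a / n + 2 * ∑ k ∈ Finset.range n, ∫ x, G (P k x) ∂ρ := by
        rw [integral_add (integrable_const _) (hsumi.const_mul _), integral_const_mul,
          integral_finsetSum _ fun k hk => (hGk k (Finset.mem_range.mp hk)).1]
        simp
    _ ≤ _ := by
        rw [mul_assoc 2, Finset.sum_mul]
        gcongr with k hk
        exact (hGk k (Finset.mem_range.mp hk)).2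

end Crest.Agent.R82
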