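import Crest.Agent.R82.Soft

/-!
Discretisation of a compactly supported probability measure, and `c`-transforms.
-/

set_option autoImplicit false
set_option linter.unusedSectionVars false

namespace Crest.Agent.R82

open MeasureTheory Set
open scoped RealInnerProductSpace

lemma exists_discretization {X : Type*} [PseudoMetricSpace X] [MeasurableSpace X] [BorelSpace X]
    (π : Measure X) [IsProbabilityMeasure π] {S : Set X} (hS : IsCompact S)
    (hπ : ∀ᵐ p ∂π, p ∈ S) {δ : ℝ} (hδ : 0 < δ) :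
    ∃ (ι : Type) (_ : Fintype ι) (m : ι → ℝ) (pt : ι → X), Wt m ∧ (∀ i, pt i ∈ S) ∧
      ∀ (F : X → ℝ) (L : ℝ), Integrable F π → 0 ≤ L →
        (∀ p ∈ S, ∀ q ∈ S, |F p - F q| ≤ L * dist p q) →
        |∑ i, m i * F (pt i) - ∫ p, F p ∂π| ≤ L * δ := by
  classical
  obtain ⟨t, htS, htf, hcov⟩ := hS.finite_cover_balls hδ
  have hSne : S.Nonempty := by
    obtain ⟨p, hp⟩ := hπ.exists
    exact ⟨p, hp⟩
  have htne : t.Nonempty := by
    obtain ⟨p, hp⟩ := hSne
    have := hcov hp
    simp only [mem_iUnion] at this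
    obtain ⟨c, hc, -⟩ := this
    exact ⟨c, hc⟩
  obtain ⟨e, he⟩ := htf.countable.exists_eq_range htne
  have h1 : ∀ c : X, ∃ k : ℕ, c ∈ t → e k = c := by
    intro c
    by_cases hc : c ∈ t
    · rw [he] at hc
      obtain ⟨k, hk⟩ := hc
      exact ⟨k, fun _ => hk⟩
    · exact ⟨0, fun h => absurd h hc⟩
  choose ind hind using h1
  obtain ⟨N, hN⟩ := (htf.image ind).bddAbove
  have heS : ∀ k, e k ∈ S := fun k => htS (he ▸ mem_range_self k)
  let idx : X → Fin (N + 1) := fun x =>
    ⟨SimpleFunc.nearestPtInd e N x, Nat.lt_succ_of_le (SimpleFunc.nearestPtInd_le e N x)⟩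
  have hidx : Measurable idx := by
    apply measurable_to_countable'
    intro j
    have : idx ⁻¹' {j} = (SimpleFunc.nearestPtInd e N) ⁻¹' {j.val} := by
      ext x; simp [idx, Fin.ext_iff]
    rw [this]
    exact SimpleFunc.measurableSet_fiber _ _
  have hclose : ∀ p ∈ S, dist (e (idx p)) p ≤ δ := by
    intro p hp
    have := hcov hp
    simp only [mem_iUnion] at this
    obtain ⟨c, hc, hpc⟩ := this
    have h2 := SimpleFunc.edist_nearestPt_le e p (hN (mem_image_of_mem ind hc))
    rw [hind c hc, edist_dist, edist_dist, ENNReal.ofReal_le_ofReal_iff dist_nonneg] at h2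
    have h3 : dist c p < δ := by rw [dist_comm]; exact hpc
    exact le_trans h2 h3.le
  set ν := π.map idx with hν
  have : IsProbabilityMeasure ν := Measure.isProbabilityMeasure_map hidx.aemeasurable
  have hsum : ∀ G : Fin (N + 1) → ℝ,
      ∑ j : {j : Fin (N + 1) // 0 < ν.real {j}}, ν.real {j.val} * G j.val = ∫ p, G (idx p) ∂π := by
    intro G
    rw [← integral_map hidx.aemeasurable (measurable_from_top.aestronglyMeasurable),
      integral_fintype Integrable.of_finite,
      ← Finset.sum_subtype (Finset.univ.filter fun j => 0 < ν.real {j}) (by simp)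
        (fun j => ν.real {j} * G j), Finset.sum_filter_of_ne]
    · rfl
    · intro j _ hj
      rcases (measureReal_nonneg (μ := ν) (s := {j})).eq_or_lt with h | h
      · rw [← h] at hj; simp at hj
      · exact h
  refine ⟨{j : Fin (N + 1) // 0 < ν.real {j}}, inferInstance, fun j => ν.real {j.val},
    fun j => e j.val, ⟨fun j => j.2, ?_⟩, fun j => heS _, ?_⟩
  · simpa using hsum (fun _ => 1)
  · intro F L hF hL hLip
    rw [hsum (fun j => F (e j))]
    have hint : Integrable (fun p => F (e (idx p))) π := by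
      have : Integrable (fun j : Fin (N + 1) => F (e j)) ν := Integrable.of_finite
      exact (integrable_map_measure this.1 hidx.aemeasurable).mp this
    rw [← integral_sub hint hF]
    have := norm_integral_le_of_norm_le_const (μ := π) (f := fun p => F (e (idx p)) - F p)
      (C := L * δ) (by
        filter_upwards [hπ] with p hp
        rw [Real.norm_eq_abs]
        exact (hLip _ (heS _) _ hp).trans (mul_le_mul_of_nonneg_left (hclose p hp) hL))
    simpa using this

variable {E : Type*} [NormedAddCommGroup E] [InnerProductSpace ℝ E]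

/-- `χ` is the transform `y ↦ sup_{x ∈ K} ⟪x, y⟫ - θ x`. -/
structure CT (K : Set E) (a : ℝ) (θ χ : E → ℝ) : Prop where
  lip : ∀ y y', χ y - χ y' ≤ a * ‖y - y'‖
  ge : ∀ x ∈ K, ∀ y, ⟪x, y⟫ - θ x ≤ χ y
  le : ∀ y c, (∀ x ∈ K, ⟪x, y⟫ - θ x ≤ c) → χ y ≤ c

lemma continuous_of_lip {f : E → ℝ} {R : ℝ} (h : ∀ y y', f y - f y' ≤ R * ‖y - y'‖) :
    Continuous f := by
  apply LipschitzWith.continuous (K := Real.toNNReal R)
  apply LipschitzWith.of_le_add_mul
  intro x y
  have h1 := h x y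
  have h2 : R * ‖x - y‖ ≤ Real.toNNReal R * dist x y := by
    rw [dist_eq_norm]
    exact mul_le_mul_of_nonneg_right (Real.le_coe_toNNReal R) (norm_nonneg _)
  linarith

lemma abs_sub_le_of_lip {f : E → ℝ} {R : ℝ} (h : ∀ y y', f y - f y' ≤ R * ‖y - y'‖) (y y' : E) :
    |f y - f y'| ≤ R * ‖y - y'‖ := by
  rw [abs_le]
  have := h y' y
  rw [norm_sub_rev] at this
  exact ⟨by linarith, h y y'⟩

lemma exists_CT {K : Set E} {a R : ℝ} (hK : K.Nonempty) (ha : ∀ x ∈ K, ‖x‖ ≤ a) (hR : 0 ≤ R)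
    {θ : E → ℝ} (hθ : ∀ x x', θ x - θ x' ≤ R * ‖x - x'‖) : ∃ χ, CT K a θ χ := by
  have hne : Nonempty K := hK.to_subtype
  have hbdd : ∀ y, BddAbove (range fun x : K => ⟪(x : E), y⟫ - θ x) := by
    intro y
    refine ⟨a * ‖y‖ + R * a - θ 0, ?_⟩
    rintro _ ⟨x, rfl⟩
    have h1 : ⟪(x : E), y⟫ ≤ a * ‖y‖ :=
      (real_inner_le_norm _ _).trans (by gcongr; exact ha x x.2)
    have h2 := hθ 0 x
    rw [zero_sub, norm_neg] at h2
    have h3 : R * ‖(x : E)‖ ≤ R * a := by gcongr; exact ha x x.2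
    simp only
    linarith
  have hge : ∀ x ∈ K, ∀ y, ⟪x, y⟫ - θ x ≤ ⨆ x : K, (⟪(x : E), y⟫ - θ x) :=
    fun x hx y => le_ciSup (hbdd y) ⟨x, hx⟩
  refine ⟨fun y => ⨆ x : K, (⟪(x : E), y⟫ - θ x), ?_, hge, ?_⟩
  · intro y y'
    rw [sub_le_iff_le_add]
    apply ciSup_le
    intro x
    have h1 := hge x x.2 y'
    have h2 : ⟪(x : E), y - y'⟫ ≤ a * ‖y - y'‖ :=
      (real_inner_le_norm _ _).trans (by gcongr; exact ha x x.2)
    rw [inner_sub_right] at h2
    linarith
  · intro y c h
    exact ciSup_le fun x => h x x.2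

end Crest.Agent.R82
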