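import Crest.Agent.R82.Uniform

/-!
The three-atom example on the cube showing that the exponent `1/3` cannot be improved.
-/

set_option autoImplicit false
set_option linter.unusedSectionVars false

namespace Crest.Agent.R82

open MeasureTheory Set Filter Topology
open scoped RealInnerProductSpace NNReal ENNReal
open Crest.AnalysisR.OT

variable {d : ℕ}

/-- The cube. -/
abbrev cube (d : ℕ) : Set (EuclideanSpace ℝ (Fin d)) := {x | ∀ i, |x i| ≤ 1}

lemma volume_box (lo hi : Fin d → ℝ) :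
    volume {x : EuclideanSpace ℝ (Fin d) | ∀ k, lo k ≤ x k ∧ x k ≤ hi k}
      = ∏ k, ENNReal.ofReal (hi k - lo k) := by
  rw [← Real.volume_Icc_pi,
    ← (PiLp.volume_preserving_ofLp (Fin d)).measure_preimage measurableSet_Icc.nullMeasurableSet]
  congr 1
  ext x
  simp only [mem_ofPred_eq, mem_preimage, mem_Icc, Pi.le_def, forall_and]

lemma volume_cube : volume (cube d) = ∏ _k : Fin d, ENNReal.ofReal 2 := by
  have := volume_box (d := d) (fun _ => -1) (fun _ => 1)
  simp only [← abs_le] at this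
  rw [this]
  norm_num

lemma isClosed_cube : IsClosed (cube d) := by
  have : cube d = ⋂ i, {x : EuclideanSpace ℝ (Fin d) | |x i| ≤ 1} := by ext; simp
  rw [this]
  exact isClosed_iInter fun i => isClosed_le (by fun_prop) continuous_const

lemma norm_le_of_mem_cube {x : EuclideanSpace ℝ (Fin d)} (hx : x ∈ cube d) : ‖x‖ ≤ d + 1 := by
  have h1 : ‖x‖ ^ 2 ≤ d := by
    rw [EuclideanSpace.real_norm_sq_eq]
    calc ∑ i, x i ^ 2 ≤ ∑ _i : Fin d, (1 : ℝ) := Finset.sum_le_sum fun i _ => by
          have := hx i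
          rw [← sq_abs]; nlinarith [abs_nonneg (x i)]
      _ = d := by simp
  nlinarith [norm_nonneg x, (Nat.cast_nonneg d : (0 : ℝ) ≤ d)]

lemma isCompact_cube : IsCompact (cube d) :=
  Metric.isCompact_of_isClosed_isBounded isClosed_cube
    (isBounded_iff_forall_norm_le.mpr ⟨_, fun _ hx => norm_le_of_mem_cube hx⟩)

lemma convex_cube : Convex ℝ (cube d) := by
  intro x hx y hy a b ha hb hab i
  have h1 := hx i
  have h2 := hy i
  simp only [PiLp.add_apply, PiLp.smul_apply, smul_eq_mul]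
  rw [abs_le] at h1 h2 ⊢
  constructor <;> nlinarith [h1.1, h1.2, h2.1, h2.2]

lemma src_cube : Src (uniformProbOn (cube d)) (cube d) (d + 1) :=
  src_uniform isCompact_cube convex_cube (by rw [volume_cube]; simp) (by positivity)
    fun _ hx => norm_le_of_mem_cube hx

/-- A box in the cube with two restricted coordinates. -/
def box2 (i j : Fin d) (l₁ h₁ l₂ h₂ : ℝ) : Set (EuclideanSpace ℝ (Fin d)) :=
  {x | x ∈ cube d ∧ (l₁ ≤ x i ∧ x i ≤ h₁) ∧ (l₂ ≤ x j ∧ x j ≤ h₂)}

lemma measurableSet_box2 (i j : Fin d) (l₁ h₁ l₂ h₂ : ℝ) :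
    MeasurableSet (box2 i j l₁ h₁ l₂ h₂) := by
  apply IsClosed.measurableSet
  have h1 : ∀ (c : ℝ) (k : Fin d), IsClosed {x : EuclideanSpace ℝ (Fin d) | c ≤ x k} :=
    fun c k => isClosed_le (by fun_prop) (by fun_prop)
  have h2 : ∀ (c : ℝ) (k : Fin d), IsClosed {x : EuclideanSpace ℝ (Fin d) | x k ≤ c} :=
    fun c k => isClosed_le (by fun_prop) (by fun_prop)
  exact isClosed_cube.inter (((h1 _ _).inter (h2 _ _)).inter ((h1 _ _).inter (h2 _ _)))

lemma measure_box2 {i j : Fin d} (hij : i ≠ j) {l₁ h₁ l₂ h₂ : ℝ} (a1 : -1 ≤ l₁) (a2 : h₁ ≤ 1)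
    (a3 : -1 ≤ l₂) (a4 : h₂ ≤ 1) :
    uniformProbOn (cube d) (box2 i j l₁ h₁ l₂ h₂)
      = ENNReal.ofReal ((h₁ - l₁) / 2) * ENNReal.ofReal ((h₂ - l₂) / 2) := by
  classical
  set lo : Fin d → ℝ := fun k => if k = i then l₁ else if k = j then l₂ else -1 with hlo
  set hi : Fin d → ℝ := fun k => if k = i then h₁ else if k = j then h₂ else 1 with hhi
  have e : box2 i j l₁ h₁ l₂ h₂ ∩ cube d
      = {x : EuclideanSpace ℝ (Fin d) | ∀ k, lo k ≤ x k ∧ x k ≤ hi k} := by
    ext x
    simp only [box2, mem_inter_iff, mem_ofPred_eq]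
    constructor
    · rintro ⟨⟨h0, h1, h2⟩, -⟩ k
      simp only [hlo, hhi]
      split_ifs with hk hk'
      · rw [hk]; exact h1
      · rw [hk']; exact h2
      · exact abs_le.mp (h0 k)
    · intro h
      have h0 : ∀ k, |x k| ≤ 1 := by
        intro k
        have := h k
        simp only [hlo, hhi] at this
        rw [abs_le]
        split_ifs at this <;> constructor <;> linarith [this.1, this.2]
      refine ⟨⟨h0, ?_, ?_⟩, h0⟩
      · simpa [hlo, hhi] using h i
      · simpa [hlo, hhi, hij.symm] using h j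
  rw [uniformProbOn, Measure.smul_apply, Measure.restrict_apply (measurableSet_box2 _ _ _ _ _ _), e,
    volume_box, volume_cube, smul_eq_mul, ENNReal.prod_inv_distrib', ← Finset.prod_mul_distrib,
    Finset.prod_eq_mul i j hij]
  · simp only [hlo, hhi, if_true, hij.symm, if_false]
    rw [ENNReal.ofReal_div_of_pos two_pos, ENNReal.ofReal_div_of_pos two_pos,
      ENNReal.div_eq_inv_mul, ENNReal.div_eq_inv_mul]
  · intro c _ hc
    simp only [hlo, hhi, hc.1, hc.2, if_false]
    norm_num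
    exact ENNReal.inv_mul_cancel (by norm_num) (by norm_num)
  · simp
  · simp
where
  ENNReal.prod_inv_distrib' : (∏ _k : Fin d, ENNReal.ofReal 2)⁻¹
      = ∏ _k : Fin d, (ENNReal.ofReal 2)⁻¹ := by
    simp [ENNReal.inv_pow]

/-- The three atoms. -/
noncomputable def atoms (i j : Fin d) (s : ℝ) : Fin 3 → EuclideanSpace ℝ (Fin d) :=
  ![EuclideanSpace.single j s, EuclideanSpace.single i 1, EuclideanSpace.single i (-1)]

/-- The cell index. -/
noncomputable def idx (i j : Fin d) (s : ℝ) (x : EuclideanSpace ℝ (Fin d)) : Fin 3 :=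
  if |x i| ≤ s * x j then 0 else if 0 ≤ x i then 1 else 2

/-- The optimal map. -/
noncomputable def Tmap (i j : Fin d) (s : ℝ) (x : EuclideanSpace ℝ (Fin d)) :
    EuclideanSpace ℝ (Fin d) := atoms i j s (idx i j s x)

variable {i j : Fin d} {s : ℝ}

lemma measurable_idx : Measurable (idx i j s) := by
  unfold idx
  refine Measurable.ite (measurableSet_le (by fun_prop) (by fun_prop)) measurable_const
    (Measurable.ite (measurableSet_le (by fun_prop) (by fun_prop)) measurable_const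
      measurable_const)

lemma measurable_Tmap : Measurable (Tmap i j s) :=
  (measurable_from_top (f := atoms i j s)).comp measurable_idx

lemma inner_atoms0 (x : EuclideanSpace ℝ (Fin d)) : ⟪x, atoms i j s 0⟫ = s * x j := by
  simp [atoms, EuclideanSpace.inner_single_right]

lemma inner_atoms1 (x : EuclideanSpace ℝ (Fin d)) : ⟪x, atoms i j s 1⟫ = x i := by
  simp [atoms, EuclideanSpace.inner_single_right]

lemma inner_atoms2 (x : EuclideanSpace ℝ (Fin d)) : ⟪x, atoms i j s 2⟫ = -x i := by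
  simp [atoms, EuclideanSpace.inner_single_right]

lemma inner_atoms_le (x : EuclideanSpace ℝ (Fin d)) (k : Fin 3) :
    ⟪x, atoms i j s k⟫ ≤ ⟪x, Tmap i j s x⟫ := by
  unfold Tmap idx
  have h1 := le_abs_self (x i)
  have h2 := neg_abs_le (x i)
  split_ifs with ha hb
  · fin_cases k <;> simp only [Fin.reduceFinMk, Fin.zero_eta, Fin.mk_one, inner_atoms0,
      inner_atoms1, inner_atoms2] <;> linarith
  · rw [abs_of_nonneg hb] at ha
    fin_cases k <;> simp only [Fin.reduceFinMk, Fin.zero_eta, Fin.mk_one, inner_atoms0,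
      inner_atoms1, inner_atoms2] <;> linarith
  · rw [abs_of_neg (not_le.mp hb)] at ha
    fin_cases k <;> simp only [Fin.reduceFinMk, Fin.zero_eta, Fin.mk_one, inner_atoms0,
      inner_atoms1, inner_atoms2] <;> linarith

lemma norm_atoms_le (hs : |s| ≤ 1) (k : Fin 3) : ‖atoms i j s k‖ ≤ 1 := by
  fin_cases k <;> simp [atoms, hs]

lemma atoms_mem_cube (hs : |s| ≤ 1) (k : Fin 3) : atoms i j s k ∈ cube d := fun l =>
  (PiLp.norm_apply_le (atoms i j s k) l).trans (norm_atoms_le hs k)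

lemma atoms_injective (hij : i ≠ j) : Function.Injective (atoms i j s) := by
  intro k l h
  have h1 := congrArg (fun x : EuclideanSpace ℝ (Fin d) => x i) h
  fin_cases k <;> fin_cases l <;> simp [atoms, hij] at h1 ⊢ <;> norm_num at h1

lemma map_Tmap (ρ : Measure (EuclideanSpace ℝ (Fin d))) :
    ρ.map (Tmap i j s) = ∑ k, ρ (idx i j s ⁻¹' {k}) • Measure.dirac (atoms i j s k) := by
  have h1 : ρ.map (Tmap i j s) = (ρ.map (idx i j s)).map (atoms i j s) :=
    (Measure.map_map measurable_from_top measurable_idx).symm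
  rw [h1]
  conv_lhs => rw [← Measure.sum_smul_dirac (ρ.map (idx i j s)), Measure.sum_fintype]
  rw [Measure.map_finset_sum' measurable_from_top.aemeasurable]
  apply Finset.sum_congr rfl
  intro k _
  rw [Measure.map_smul, Measure.map_dirac' measurable_from_top,
    Measure.map_apply measurable_idx (measurableSet_singleton k)]

lemma cost_expand {S : EuclideanSpace ℝ (Fin d) → EuclideanSpace ℝ (Fin d)} (hSm : Measurable S)
    (hSb : ∀ᵐ x ∂(uniformProbOn (cube d)), ‖S x‖ ≤ 1) :
    ∫⁻ x, ‖x - S x‖ₑ ^ 2 ∂(uniformProbOn (cube d))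
      = ENNReal.ofReal (∫ x, ‖x‖ ^ 2 ∂(uniformProbOn (cube d))
        - 2 * ∫ x, ⟪x, S x⟫ ∂(uniformProbOn (cube d))
        + ∫ y, ‖y‖ ^ 2 ∂((uniformProbOn (cube d)).map S)) ∧
      0 ≤ (∫ x, ‖x‖ ^ 2 ∂(uniformProbOn (cube d))
        - 2 * ∫ x, ⟪x, S x⟫ ∂(uniformProbOn (cube d))
        + ∫ y, ‖y‖ ^ 2 ∂((uniformProbOn (cube d)).map S)) := by
  have hS := src_cube (d := d)
  rw [integral_map hSm.aemeasurable (Continuous.aestronglyMeasurable (by fun_prop))]
  have i1 : Integrable (fun x => ‖x - S x‖ ^ 2) (uniformProbOn (cube d)) :=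
    hS.int_comp hSm hSb (F := fun p => ‖p.1 - p.2‖ ^ 2) (by fun_prop)
  have i2 : Integrable (fun x => ⟪x, S x⟫) (uniformProbOn (cube d)) :=
    hS.int_comp hSm hSb (F := fun p => ⟪p.1, p.2⟫) (by fun_prop)
  have i3 : Integrable (fun x => ‖S x‖ ^ 2) (uniformProbOn (cube d)) :=
    hS.int_comp hSm hSb (F := fun p => ‖p.2‖ ^ 2) (by fun_prop)
  have i4 : Integrable (fun x : EuclideanSpace ℝ (Fin d) => ‖x‖ ^ 2) (uniformProbOn (cube d)) :=
    hS.int _ (by fun_prop)
  have i5 : Integrable (fun x : EuclideanSpace ℝ (Fin d) => ‖x‖ ^ 2 - 2 * ⟪x, S x⟫)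
    (uniformProbOn (cube d)) := i4.sub (i2.const_mul 2)
  have e : ∫ x, ‖x - S x‖ ^ 2 ∂(uniformProbOn (cube d)) = ∫ x, ‖x‖ ^ 2 ∂(uniformProbOn (cube d))
      - 2 * ∫ x, ⟪x, S x⟫ ∂(uniformProbOn (cube d)) + ∫ x, ‖S x‖ ^ 2 ∂(uniformProbOn (cube d)) := by
    simp only [norm_sub_sq_real]
    rw [integral_add i5 i3, integral_sub i4 (i2.const_mul 2), integral_const_mul]
  rw [lintegral_enorm_sq i1, ← e]
  exact ⟨rfl, integral_nonneg fun x => sq_nonneg _⟩

lemma ae_mem_atoms {ρ : Measure (EuclideanSpace ℝ (Fin d))}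
    {S : EuclideanSpace ℝ (Fin d) → EuclideanSpace ℝ (Fin d)} (hSm : Measurable S)
    (hmap : ρ.map S = ρ.map (Tmap i j s)) : ∀ᵐ x ∂ρ, ∃ k, atoms i j s k = S x := by
  have h1 : ∀ᵐ y ∂(ρ.map (Tmap i j s)), y ∈ range (atoms i j s) :=
    (ae_map_iff measurable_Tmap.aemeasurable (finite_range _).measurableSet).mpr
      (Eventually.of_forall fun x => mem_range_self _)
  rw [← hmap] at h1
  exact ae_of_ae_map hSm.aemeasurable h1

lemma optimal_Tmap (hs : |s| ≤ 1) :
    IsOptimalMap (uniformProbOn (cube d)) ((uniformProbOn (cube d)).map (Tmap i j s))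
      (Tmap i j s) := by
  have hS := src_cube (d := d)
  refine ⟨measurable_Tmap, rfl, fun S hSm hmap => ?_⟩
  have h1 := ae_mem_atoms hSm hmap
  have b1 : ∀ᵐ x ∂(uniformProbOn (cube d)), ‖S x‖ ≤ 1 := by
    filter_upwards [h1] with x ⟨k, hk⟩ using hk ▸ norm_atoms_le hs k
  have b2 : ∀ᵐ x ∂(uniformProbOn (cube d)), ‖Tmap i j s x‖ ≤ 1 :=
    Eventually.of_forall fun x => norm_atoms_le hs _
  rw [(cost_expand hSm b1).1, (cost_expand measurable_Tmap b2).1, hmap]
  apply ENNReal.ofReal_le_ofReal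
  have : ∫ x, ⟪x, S x⟫ ∂(uniformProbOn (cube d)) ≤ ∫ x, ⟪x, Tmap i j s x⟫ ∂(uniformProbOn (cube d)) := by
    apply integral_mono_ae (hS.int_comp hSm b1 (F := fun p => ⟪p.1, p.2⟫) (by fun_prop))
      (hS.int_comp measurable_Tmap b2 (F := fun p => ⟪p.1, p.2⟫) (by fun_prop))
    filter_upwards [h1] with x ⟨k, hk⟩
    simp only [← hk]
    exact inner_atoms_le x k
  linarith

lemma optimal_unique (hs : |s| ≤ 1) {S : EuclideanSpace ℝ (Fin d) → EuclideanSpace ℝ (Fin d)}
    (hopt : IsOptimalMap (uniformProbOn (cube d)) ((uniformProbOn (cube d)).map (Tmap i j s)) S) :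
    ∀ᵐ x ∂(uniformProbOn (cube d)), ∃ k, atoms i j s k = S x ∧
      ∀ l, ⟪x, atoms i j s l⟫ ≤ ⟪x, atoms i j s k⟫ := by
  have hS := src_cube (d := d)
  obtain ⟨hSm, hmap, hmin⟩ := hopt
  have h1 := ae_mem_atoms hSm hmap
  have b1 : ∀ᵐ x ∂(uniformProbOn (cube d)), ‖S x‖ ≤ 1 := by
    filter_upwards [h1] with x ⟨k, hk⟩ using hk ▸ norm_atoms_le hs k
  have b2 : ∀ᵐ x ∂(uniformProbOn (cube d)), ‖Tmap i j s x‖ ≤ 1 :=
    Eventually.of_forall fun x => norm_atoms_le hs _
  have h2 := hmin _ measurable_Tmap rfl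
  rw [(cost_expand hSm b1).1, (cost_expand measurable_Tmap b2).1, hmap,
    ENNReal.ofReal_le_ofReal_iff (cost_expand measurable_Tmap b2).2] at h2
  have i1 : Integrable (fun x => ⟪x, S x⟫) (uniformProbOn (cube d)) :=
    hS.int_comp hSm b1 (F := fun p => ⟪p.1, p.2⟫) (by fun_prop)
  have i2 : Integrable (fun x => ⟪x, Tmap i j s x⟫) (uniformProbOn (cube d)) :=
    hS.int_comp measurable_Tmap b2 (F := fun p => ⟪p.1, p.2⟫) (by fun_prop)
  have h3 : 0 ≤ᵐ[uniformProbOn (cube d)] fun x => ⟪x, Tmap i j s x⟫ - ⟪x, S x⟫ := by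
    filter_upwards [h1] with x ⟨k, hk⟩
    simp only [← hk, Pi.zero_apply, sub_nonneg]
    exact inner_atoms_le x k
  have h4 : ∫ x, (⟪x, Tmap i j s x⟫ - ⟪x, S x⟫) ∂(uniformProbOn (cube d)) = 0 := by
    apply le_antisymm _ (integral_nonneg_of_ae h3)
    rw [integral_sub i2 i1]
    linarith
  have h5 := (integral_eq_zero_iff_of_nonneg_ae h3 (i2.sub i1)).mp h4
  filter_upwards [h1, h5] with x ⟨k, hk⟩ hx
  refine ⟨k, hk, fun l => ?_⟩
  have := inner_atoms_le (i := i) (j := j) (s := s) x l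
  simp only [Pi.zero_apply, ← hk] at hx
  linarith

lemma threeAtomic_Tmap (hij : i ≠ j) (hs0 : s ≠ 0) (hs : |s| ≤ 1 / 2) :
    IsThreeAtomic ((uniformProbOn (cube d)).map (Tmap i j s)) := by
  have hprob := (src_cube (d := d)).prob
  refine ⟨atoms i j s, atoms_injective hij,
    fun k => (uniformProbOn (cube d) (idx i j s ⁻¹' {k})).toReal, fun k => ?_, ?_⟩
  · apply ENNReal.toReal_pos _ (measure_ne_top _ _)
    have key : ∀ l₁ h₁ l₂ h₂ : ℝ, -1 ≤ l₁ → h₁ ≤ 1 → -1 ≤ l₂ → h₂ ≤ 1 → l₁ < h₁ → l₂ < h₂ →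
        box2 i j l₁ h₁ l₂ h₂ ⊆ idx i j s ⁻¹' {k} →
        uniformProbOn (cube d) (idx i j s ⁻¹' {k}) ≠ 0 := by
      intro l₁ h₁ l₂ h₂ a1 a2 a3 a4 a5 a6 hsub
      apply ne_of_gt
      refine lt_of_lt_of_le ?_ (measure_mono hsub)
      rw [measure_box2 hij a1 a2 a3 a4]
      apply ENNReal.mul_pos <;> simp <;> linarith
    rw [abs_le] at hs
    fin_cases k
    · rcases lt_or_gt_of_ne hs0 with h | h
      · apply key (s / 4) (-s / 4) (-1) (-1 / 2) <;> try linarith
        rintro x ⟨-, h1, h2⟩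
        have : |x i| ≤ s * x j := by rw [abs_le]; constructor <;> nlinarith [h1.1, h1.2, h2.1, h2.2]
        simp [idx, this]
      · apply key (-s / 4) (s / 4) (1 / 2) 1 <;> try linarith
        rintro x ⟨-, h1, h2⟩
        have : |x i| ≤ s * x j := by rw [abs_le]; constructor <;> nlinarith [h1.1, h1.2, h2.1, h2.2]
        simp [idx, this]
    · apply key (3 / 4) 1 (-1) 1 <;> try linarith
      rintro x ⟨-, h1, h2⟩
      have h3 : 0 ≤ x i := by linarith [h1.1]
      have : ¬ |x i| ≤ s * x j := by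
        rw [abs_of_nonneg h3, not_le]; nlinarith [h1.1, h1.2, h2.1, h2.2]
      simp [idx, this, h3]
    · apply key (-1) (-3 / 4) (-1) 1 <;> try linarith
      rintro x ⟨-, h1, h2⟩
      have h3 : ¬ 0 ≤ x i := by rw [not_le]; linarith [h1.2]
      have : ¬ |x i| ≤ s * x j := by
        rw [abs_of_neg (not_le.mp h3), not_le]; nlinarith [h1.1, h1.2, h2.1, h2.2]
      simp [idx, this, h3]
  · rw [map_Tmap]
    simp only [ENNReal.ofReal_toReal (measure_ne_top _ _)]

lemma probOn_Tmap (hs : |s| ≤ 1) :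
    IsProbabilityOn (cube d) ((uniformProbOn (cube d)).map (Tmap i j s)) := by
  have hprob := (src_cube (d := d)).prob
  refine ⟨Measure.isProbabilityMeasure_map measurable_Tmap.aemeasurable, ?_⟩
  rw [Measure.map_apply measurable_Tmap isClosed_cube.measurableSet.compl]
  convert measure_empty (μ := uniformProbOn (cube d))
  ext x
  simp only [mem_preimage, mem_compl_iff, mem_empty_iff_false, iff_false, not_not]
  exact atoms_mem_cube hs _

/-- The reflection of the coordinate `j`. -/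
noncomputable def refl (j : Fin d) : EuclideanSpace ℝ (Fin d) ≃ₗᵢ[ℝ] EuclideanSpace ℝ (Fin d) :=
  LinearIsometryEquiv.piLpCongrRight 2
    (fun k => if k = j then LinearIsometryEquiv.neg ℝ else LinearIsometryEquiv.refl ℝ ℝ)

lemma refl_apply (j k : Fin d) (x : EuclideanSpace ℝ (Fin d)) :
    refl j x k = if k = j then -x k else x k := by
  simp only [refl, LinearIsometryEquiv.piLpCongrRight_apply]
  split_ifs <;> simp

lemma map_refl (j : Fin d) : (uniformProbOn (cube d)).map (refl j) = uniformProbOn (cube d) := by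
  have h1 : refl j ⁻¹' cube d = cube d := by
    ext x
    simp only [mem_preimage, mem_ofPred_eq, refl_apply]
    apply forall_congr'
    intro k
    split_ifs <;> simp
  have h2 := (refl j).measurePreserving.restrict_preimage (isClosed_cube (d := d)).measurableSet
  rw [h1] at h2
  rw [uniformProbOn, Measure.map_smul, h2.map_eq]

theorem sharp (hd : 2 ≤ d) (α : ℝ) (hα : 1 / 3 < α) (C : ℝ≥0) :
    ∃ μ ν : Measure (EuclideanSpace ℝ (Fin d)),
      IsProbabilityOn (cube d) μ ∧ IsProbabilityOn (cube d) ν ∧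
      IsThreeAtomic μ ∧ IsThreeAtomic ν ∧
      (∃ T, IsOptimalMap (uniformProbOn (cube d)) μ T) ∧
      (∃ T, IsOptimalMap (uniformProbOn (cube d)) ν T) ∧
      ∀ Tμ Tν : EuclideanSpace ℝ (Fin d) → EuclideanSpace ℝ (Fin d),
        IsOptimalMap (uniformProbOn (cube d)) μ Tμ → IsOptimalMap (uniformProbOn (cube d)) ν Tν →
        ∃ π : Measure (EuclideanSpace ℝ (Fin d) × EuclideanSpace ℝ (Fin d)),
          IsPairCoupling μ ν π ∧
          (C : ℝ≥0∞) * quadCost π ^ α < ∫⁻ x, ‖Tμ x - Tν x‖ₑ ^ 2 ∂(uniformProbOn (cube d)) := by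
  set i : Fin d := ⟨0, by omega⟩ with hi
  set j : Fin d := ⟨1, by omega⟩ with hj
  have hij : i ≠ j := by simp [hi, hj]
  have hα0 : 0 ≤ α := by linarith
  obtain ⟨ε, hε0, hε1, hε⟩ : ∃ ε : ℝ, 0 < ε ∧ ε ≤ 1 / 2 ∧ C * (4 * ε ^ 3) ^ α < ε / 16 := by
    have h1 : Tendsto (fun ε : ℝ => (C * 4 ^ α) * ε ^ (3 * α - 1)) (𝓝[>] 0)
        (𝓝 ((C * 4 ^ α) * (0 : ℝ) ^ (3 * α - 1))) :=
      ((Real.continuousAt_rpow_const 0 _ (Or.inr (by linarith))).tendsto.const_mul _).mono_left
        nhdsWithin_le_nhds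
    rw [Real.zero_rpow (by linarith), mul_zero] at h1
    have h2 := h1.eventually (gt_mem_nhds (by norm_num : (0 : ℝ) < 1 / 16))
    have h3 : ∀ᶠ ε in 𝓝[>] (0 : ℝ), ε < 1 / 2 := nhdsWithin_le_nhds (gt_mem_nhds (by norm_num))
    obtain ⟨ε, h4, h5, h6⟩ := (h2.and (h3.and self_mem_nhdsWithin)).exists
    have h7 : 0 < ε := h6
    refine ⟨ε, h7, h5.le, ?_⟩
    have h8 : (4 * ε ^ 3) ^ α = 4 ^ α * (ε ^ (3 * α - 1) * ε) := by
      rw [Real.mul_rpow (by norm_num) (by positivity), ← Real.rpow_natCast, ← Real.rpow_mul h7.le,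
        Real.rpow_sub_one h7.ne']
      field_simp
      norm_num [mul_comm]
    rw [h8]
    nlinarith
  have a1 : |ε| ≤ 1 / 2 := by rwa [abs_of_pos hε0]
  have a2 : |-ε| ≤ 1 / 2 := by rwa [abs_neg]
  have a3 : |ε| ≤ 1 := by linarith
  have a4 : |-ε| ≤ 1 := by linarith
  refine ⟨_, _, probOn_Tmap (i := i) (j := j) a3, probOn_Tmap (i := i) (j := j) a4,
    threeAtomic_Tmap hij hε0.ne' a1, threeAtomic_Tmap hij (neg_ne_zero.mpr hε0.ne') a2,
    ⟨_, optimal_Tmap a3⟩, ⟨_, optimal_Tmap a4⟩, ?_⟩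
  intro Tμ Tν hμ hν
  have hσ : Measurable (refl j) := (refl j).continuous.measurable
  have hm : Measurable fun x => (Tmap i j ε x, Tmap i j (-ε) (refl j x)) :=
    measurable_Tmap.prodMk (measurable_Tmap.comp hσ)
  refine ⟨(uniformProbOn (cube d)).map fun x => (Tmap i j ε x, Tmap i j (-ε) (refl j x)),
    ⟨?_, ?_⟩, ?_⟩
  · rw [Measure.map_map measurable_fst hm]; rfl
  · rw [Measure.map_map measurable_snd hm]
    conv_rhs => rw [← map_refl j, Measure.map_map measurable_Tmap hσ]
    rfl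
  have hq : quadCost ((uniformProbOn (cube d)).map
      fun x => (Tmap i j ε x, Tmap i j (-ε) (refl j x))) ≤ ENNReal.ofReal (4 * ε ^ 3) := by
    rw [quadCost, lintegral_map (by fun_prop) hm]
    calc _ ≤ ∫⁻ x, (box2 i j (-ε) ε (-1) 1).indicator (fun _ => ENNReal.ofReal (4 * ε ^ 2)) x
          ∂(uniformProbOn (cube d)) := by
          apply lintegral_mono_ae
          filter_upwards [src_cube.ae_mem] with x hx
          have e1 : idx i j (-ε) (refl j x) = idx i j ε x := by
            simp [idx, refl_apply, hij]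
          simp only [Tmap, e1]
          by_cases h : |x i| ≤ ε * x j
          · have hxj := abs_le.mp (hx j)
            have h' := abs_le.mp h
            rw [indicator_of_mem (show x ∈ box2 i j (-ε) ε (-1) 1 from
              ⟨hx, ⟨by nlinarith [h'.1, hxj.2], by nlinarith [h'.2, hxj.2]⟩, hxj⟩)]
            have e2 : atoms i j ε 0 - atoms i j (-ε) 0 = EuclideanSpace.single j (2 * ε) := by
              ext k
              simp only [atoms, Matrix.cons_val_zero, PiLp.sub_apply, EuclideanSpace.single_apply]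
              split_ifs <;> ring
            simp only [idx, h, if_true, e2]
            rw [← ofReal_norm, ← ENNReal.ofReal_pow (norm_nonneg _)]
            apply ENNReal.ofReal_le_ofReal
            rw [EuclideanSpace.norm_single, Real.norm_eq_abs, sq_abs]
            nlinarith
          · simp only [idx, h, if_false]
            split_ifs <;> simp [atoms]
      _ = ENNReal.ofReal (4 * ε ^ 3) := by
          rw [lintegral_indicator_const (measurableSet_box2 _ _ _ _ _ _),
            measure_box2 hij (by linarith) (by linarith) le_rfl le_rfl,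
            ← ENNReal.ofReal_mul (by linarith), ← ENNReal.ofReal_mul (by positivity)]
          congr 1; ring
  have hl : ENNReal.ofReal (ε / 16) ≤ ∫⁻ x, ‖Tμ x - Tν x‖ₑ ^ 2 ∂(uniformProbOn (cube d)) := by
    calc ENNReal.ofReal (ε / 16)
        = ∫⁻ x, (box2 i j (-ε / 4) (ε / 4) (1 / 2) 1).indicator (fun _ => 1) x
          ∂(uniformProbOn (cube d)) := by
          rw [lintegral_indicator_const (measurableSet_box2 _ _ _ _ _ _),
            measure_box2 hij (by linarith) (by linarith) (by norm_num) le_rfl,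
            ← ENNReal.ofReal_mul (by linarith), one_mul]
          congr 1; ring
      _ ≤ _ := by
          apply lintegral_mono_ae
          filter_upwards [optimal_unique a3 hμ, optimal_unique a4 hν] with x ⟨k, hk, hk'⟩ ⟨l, hl, hl'⟩
          by_cases hx : x ∈ box2 i j (-ε / 4) (ε / 4) (1 / 2) 1
          · rw [indicator_of_mem hx, ← hk, ← hl]
            obtain ⟨-, h1, h2⟩ := hx
            have k0 : k = 0 := by
              have := hk' 0
              fin_cases k
              · rfl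
              · simp only [Fin.mk_one, inner_atoms0, inner_atoms1] at this
                nlinarith [h1.1, h1.2, h2.1]
              · simp only [Fin.reduceFinMk, inner_atoms0, inner_atoms2] at this
                nlinarith [h1.1, h1.2, h2.1]
            have h3 : 1 ≤ ‖atoms i j ε k - atoms i j (-ε) l‖ := by
              refine le_trans ?_ (PiLp.norm_apply_le _ i)
              subst k0
              fin_cases l
              · have t1 := hl' 1
                have t2 := hl' 2
                simp only [Fin.zero_eta, inner_atoms0, inner_atoms1, inner_atoms2] at t1 t2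
                nlinarith [h1.1, h1.2, h2.1]
              · simp [atoms, hij]
              · simp [atoms, hij]
            rw [← ofReal_norm]
            exact one_le_pow₀ (ENNReal.one_le_ofReal.mpr h3)
          · rw [indicator_of_notMem hx]; exact zero_le
  refine lt_of_lt_of_le ?_ hl
  calc (C : ℝ≥0∞) * quadCost ((uniformProbOn (cube d)).map
        fun x => (Tmap i j ε x, Tmap i j (-ε) (refl j x))) ^ α
      ≤ C * ENNReal.ofReal (4 * ε ^ 3) ^ α := by gcongr
    _ = ENNReal.ofReal (C * (4 * ε ^ 3) ^ α) := by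
        rw [ENNReal.ofReal_rpow_of_nonneg (by positivity) hα0, ENNReal.ofReal_mul C.coe_nonneg,
          ENNReal.ofReal_coe_nnreal]
    _ < _ := (ENNReal.ofReal_lt_ofReal_iff (by positivity)).mpr hε

end Crest.Agent.R82
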