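import Crest.Agent.R82.Chain

/-!
A finite-difference interpolation inequality: subgradient selections of two Lipschitz convex
functions are close in `L²` when the functions are close in `L²`.
-/

set_option autoImplicit false
set_option linter.unusedSectionVars false

namespace Crest.Agent.R82

open MeasureTheory Set Filter Topology
open scoped RealInnerProductSpace NNReal ENNReal

variable {E : Type*} [NormedAddCommGroup E] [InnerProductSpace ℝ E] [MeasurableSpace E]
  [BorelSpace E] [FiniteDimensional ℝ E]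

lemma shift_integral (vol : Measure E) [vol.IsAddHaarMeasure] (A : Set E) (u : E) (F : E → ℝ) :
    ∫ x in A, F (x + u) ∂vol = ∫ x in (fun x => x + -u) ⁻¹' A, F x ∂vol := by
  rw [← (measurePreserving_add_right vol (-u)).setIntegral_preimage_emb
    (measurableEmbedding_addRight (-u)) (fun y => F (y + u)) A]
  simp

lemma integral_sub_integral_le (vol : Measure E) [vol.IsAddHaarMeasure] {K A B : Set E}
    (hK : IsCompact K) (hA : MeasurableSet A) (hB : MeasurableSet B) (hAK : A ⊆ K) (hBK : B ⊆ K)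
    {τ R : ℝ} (hAτ : vol.real (K \ A) ≤ τ) (hBτ : vol.real (K \ B) ≤ τ) {g : E → ℝ}
    (hg : Continuous g) (hgR : ∀ x, |g x| ≤ R) :
    ∫ x in A, g x ∂vol - ∫ x in B, g x ∂vol ≤ 2 * R * τ := by
  have hi : IntegrableOn g K vol := hg.continuousOn.integrableOn_compact hK
  have hR : 0 ≤ R := (abs_nonneg _).trans (hgR 0)
  have h1 := setIntegral_sdiff hA hi hAK
  have h2 := setIntegral_sdiff hB hi hBK
  have b : ∀ C : Set E, vol.real (K \ C) ≤ τ → |∫ x in K \ C, g x ∂vol| ≤ R * τ := by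
    intro C hC
    have := norm_setIntegral_le_of_norm_le_const (μ := vol) (s := K \ C) (f := g) (C := R)
      ((measure_mono sdiff_subset).trans_lt hK.measure_lt_top) (fun x _ => hgR x)
    exact this.trans (mul_le_mul_of_nonneg_left hC hR)
  linarith [(abs_le.mp (b A hAτ)).1, (abs_le.mp (b B hBτ)).2]

lemma gn_dir (vol : Measure E) [vol.IsAddHaarMeasure] {K : Set E} (hK : IsCompact K)
    (hKv : Convex ℝ K) {x₀ : E} {r : ℝ} (hr : 0 < r) (hball : Metric.closedBall x₀ r ⊆ K)
    {R : ℝ} {T₀ T₁ : E → E} {φ₀ φ₁ : E → ℝ} (h0 : Pot (vol.restrict K) R T₀ φ₀)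
    (h1 : Pot (vol.restrict K) R T₁ φ₁) (c : ℝ) {e : E} (he : ‖e‖ = 1) {h : ℝ} (hh : 0 < h)
    (hhr : h ≤ r) :
    ∫ x in K, ⟪T₀ x - T₁ x, e⟫ ^ 2 ∂vol
      ≤ 8 / h ^ 2 * ∫ x in K, (φ₁ x - φ₀ x - c) ^ 2 ∂vol
        + 20 * R ^ 2 * (Module.finrank ℝ E * (h / r) * vol.real K) := by
  have hKm := hK.measurableSet
  have hfin : IsFiniteMeasure (vol.restrict K) := isFiniteMeasure_restrict.mpr hK.measure_lt_top.ne
  have hR := h0.R0
  have c0 := continuous_of_lip h0.lip
  have c1 := continuous_of_lip h1.lip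
  set t := h / r with ht
  have ht0 : 0 < t := by positivity
  have ht1 : t ≤ 1 := (div_le_one hr).mpr hhr
  set K' := AffineMap.homothety x₀ (1 - t) '' K with hK'
  have hK'c : IsCompact K' := hK.image (AffineMap.homothety_continuous _ _)
  have hK'm := hK'c.measurableSet
  have hshift : ∀ x ∈ K', ∀ u : E, ‖u‖ ≤ h → x + u ∈ K := by
    rintro _ ⟨y, hy, rfl⟩ u hu
    have h2 : x₀ + t⁻¹ • u ∈ K := by
      apply hball
      rw [Metric.mem_closedBall, dist_eq_norm, add_sub_cancel_left, norm_smul,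
        Real.norm_of_nonneg (by positivity), ht, inv_div, div_mul_eq_mul_div, div_le_iff₀ hh]
      gcongr
    have h3 := hKv hy h2 (by linarith : 0 ≤ 1 - t) ht0.le (by ring)
    convert h3 using 1
    rw [AffineMap.homothety_apply, vsub_eq_sub, vadd_eq_add, smul_add, smul_smul,
      mul_inv_cancel₀ ht0.ne', one_smul]
    module
  have hK'K : K' ⊆ K := fun x hx => by simpa using hshift x hx 0 (by simpa using hh.le)
  set τ := Module.finrank ℝ E * t * vol.real K with hτ
  have hvol : ∀ A : Set E, MeasurableSet A → A ⊆ K → vol A = vol K' → vol.real (K \ A) ≤ τ := by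
    intro A hA hAK hAv
    rw [measureReal_sdiff hAK hA hK.measure_lt_top.ne]
    have h2 : vol.real A = (1 - t) ^ Module.finrank ℝ E * vol.real K := by
      rw [measureReal_def, hAv, hK', Measure.addHaar_image_homothety, ENNReal.toReal_mul,
        ENNReal.toReal_ofReal (abs_nonneg _), abs_of_nonneg (pow_nonneg (by linarith) _)]
      rfl
    have h3 : 1 + (Module.finrank ℝ E : ℝ) * (-t) ≤ (1 + (-t)) ^ Module.finrank ℝ E :=
      one_add_mul_le_pow (by linarith) _
    have h4 : 0 ≤ vol.real K := measureReal_nonneg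
    rw [h2, hτ]
    have h5 := mul_le_mul_of_nonneg_right h3 h4
    rw [← sub_eq_add_neg] at h5
    nlinarith
  have hpre : ∀ u : E, ‖u‖ ≤ h → MeasurableSet ((fun x => x + -u) ⁻¹' K') ∧
      (fun x => x + -u) ⁻¹' K' ⊆ K ∧ vol.real (K \ (fun x => x + -u) ⁻¹' K') ≤ τ := by
    intro u hu
    have m1 : MeasurableSet ((fun x => x + -u) ⁻¹' K') := hK'm.preimage (measurable_add_const _)
    have m2 : (fun x => x + -u) ⁻¹' K' ⊆ K := fun x hx => by simpa using hshift _ hx u hu
    exact ⟨m1, m2, hvol _ m1 m2 (measure_preimage_add_right _ _ _)⟩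
  have hhe : ‖h • e‖ ≤ h := by rw [norm_smul, he, mul_one, Real.norm_of_nonneg hh.le]
  have hhe' : ‖-(h • e)‖ ≤ h := by rwa [norm_neg]
  set f := fun x => φ₁ x - φ₀ x - c with hf
  have cf : Continuous f := by simp only [hf]; fun_prop
  set Δ : (E → ℝ) → E → ℝ := fun φ x => (φ (x + h • e) + φ (x + -(h • e)) - 2 * φ x) / h with hΔ
  -- second differences have small integral
  have hΔint : ∀ φ : E → ℝ, (∀ x x', φ x - φ x' ≤ R * ‖x - x'‖) →
      ∫ x in K', Δ φ x ∂vol ≤ 2 * R * τ := by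
    intro φ hφ
    have cφ := continuous_of_lip hφ
    set g := fun x => (φ (x + h • e) - φ x) / h with hg
    have cg : Continuous g := by simp only [hg]; fun_prop
    have hgR : ∀ x, |g x| ≤ R := by
      intro x
      have := abs_sub_le_of_lip hφ (x + h • e) x
      rw [add_sub_cancel_left] at this
      simp only [hg]
      rw [abs_div, abs_of_pos hh, div_le_iff₀ hh]
      exact this.trans (mul_le_mul_of_nonneg_left hhe hR)
    have e1 : ∀ x, Δ φ x = g x - g (x + -(h • e)) := by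
      intro x
      simp only [hΔ, hg, neg_add_cancel_right]
      ring
    simp only [e1]
    rw [integral_sub (cg.continuousOn.integrableOn_compact hK'c)
      ((by fun_prop : Continuous fun x => g (x + -(h • e))).continuousOn.integrableOn_compact hK'c),
      shift_integral]
    obtain ⟨m1, m2, m3⟩ := hpre _ hhe'
    exact integral_sub_integral_le vol hK hK'm m1 hK'K m2 (hvol _ hK'm hK'K rfl) m3 cg hgR
  have hf2 : IntegrableOn (fun x => f x ^ 2) K vol :=
    (by fun_prop : Continuous fun x => f x ^ 2).continuousOn.integrableOn_compact hK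
  set V := ∫ x in K, f x ^ 2 ∂vol with hV
  have hsq : ∀ A : Set E, A ⊆ K → ∫ x in A, f x ^ 2 ∂vol ≤ V := fun A hA =>
    setIntegral_mono_set hf2 (Eventually.of_forall fun x => sq_nonneg _) hA.eventuallyLE
  set D := fun x => ⟪T₀ x - T₁ x, e⟫ with hD
  have hDb : ∀ᵐ x ∂(vol.restrict K), D x ^ 2 ≤ 4 * R ^ 2 := by
    filter_upwards [h0.bdd, h1.bdd] with x hx hx'
    have h2 : |D x| ≤ 2 * R := by
      refine (abs_real_inner_le_norm _ _).trans ?_
      rw [he, mul_one]
      linarith [norm_sub_le (T₀ x) (T₁ x)]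
    rw [← sq_abs]
    nlinarith [abs_nonneg (D x)]
  have hDi : IntegrableOn (fun x => D x ^ 2) K vol := by
    refine Integrable.of_bound (((h0.meas.sub h1.meas).inner measurable_const).pow_const 2
      ).aestronglyMeasurable (4 * R ^ 2) ?_
    filter_upwards [hDb] with x hx
    rwa [Real.norm_of_nonneg (sq_nonneg _)]
  have part1 : ∫ x in K \ K', D x ^ 2 ∂vol ≤ 4 * R ^ 2 * τ := by
    have := norm_setIntegral_le_of_norm_le_const_ae (μ := vol) (s := K \ K')
      (f := fun x => D x ^ 2) (C := 4 * R ^ 2)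
      ((measure_mono sdiff_subset).trans_lt hK.measure_lt_top) (by
        filter_upwards [ae_restrict_of_ae_restrict_of_subset sdiff_subset hDb] with x hx
        rwa [Real.norm_of_nonneg (sq_nonneg _)])
    exact (le_abs_self _).trans (this.trans
      (mul_le_mul_of_nonneg_left (hvol _ hK'm hK'K rfl) (by positivity)))
  have hpt : ∀ᵐ x ∂(vol.restrict K'), D x ^ 2
      ≤ 4 / h ^ 2 * (f (x + h • e) ^ 2 + f x ^ 2) + 4 * R * (Δ φ₀ x + Δ φ₁ x) := by
    filter_upwards [ae_restrict_of_ae_restrict_of_subset hK'K h0.good,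
      ae_restrict_of_ae_restrict_of_subset hK'K h1.good] with x hx0 hx1
    have a1 := hx0.2 (x + h • e)
    have a2 := hx0.2 (x + -(h • e))
    have a3 := hx1.2 (x + h • e)
    have a4 := hx1.2 (x + -(h • e))
    simp only [add_sub_cancel_left, inner_neg_left, inner_smul_left, conj_trivial] at a1 a2 a3 a4
    have l1 := h0.lip (x + h • e) x
    have l2 := h0.lip (x + -(h • e)) x
    have l3 := h1.lip (x + h • e) x
    have l4 := h1.lip (x + -(h • e)) x
    simp only [add_sub_cancel_left] at l1 l2 l3 l4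
    have m1 := mul_le_mul_of_nonneg_left hhe hR
    have m2 := mul_le_mul_of_nonneg_left hhe' hR
    have hDx : h * D x = h * ⟪e, T₀ x⟫ - h * ⟪e, T₁ x⟫ := by
      simp only [hD, inner_sub_left, real_inner_comm]; ring
    set A := (f (x + h • e) - f x) / h with hA
    set Δ₀ := Δ φ₀ x with hΔ₀
    set Δ₁ := Δ φ₁ x with hΔ₁
    have eA : h * A = f (x + h • e) - f x := by rw [hA]; field_simp
    have e0 : h * Δ₀ = φ₀ (x + h • e) + φ₀ (x + -(h • e)) - 2 * φ₀ x := by
      simp only [hΔ₀, hΔ]; field_simp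
    have e1 : h * Δ₁ = φ₁ (x + h • e) + φ₁ (x + -(h • e)) - 2 * φ₁ x := by
      simp only [hΔ₁, hΔ]; field_simp
    have ef : f (x + h • e) - f x
        = φ₁ (x + h • e) - φ₀ (x + h • e) - (φ₁ x - φ₀ x) := by simp only [hf]; ring
    have p0 : 0 ≤ Δ₀ := le_of_mul_le_mul_left (by linarith) hh
    have p1 : 0 ≤ Δ₁ := le_of_mul_le_mul_left (by linarith) hh
    have q0 : Δ₀ ≤ 2 * R := le_of_mul_le_mul_left (by linarith) hh
    have q1 : Δ₁ ≤ 2 * R := le_of_mul_le_mul_left (by linarith) hh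
    have u1 : D x + A ≤ Δ₁ := le_of_mul_le_mul_left (by linarith) hh
    have u2 : -Δ₀ ≤ D x + A := le_of_mul_le_mul_left (by linarith) hh
    have u3 : (D x + A) ^ 2 ≤ 2 * R * (Δ₀ + Δ₁) := by
      rcases le_total 0 (D x + A) with hs | hs
      · nlinarith
      · nlinarith
    have u4 : A ^ 2 ≤ 2 / h ^ 2 * (f (x + h • e) ^ 2 + f x ^ 2) := by
      rw [hA, div_pow, div_mul_eq_mul_div]
      gcongr
      nlinarith [sq_nonneg (f (x + h • e) + f x)]
    have u5 : 4 / h ^ 2 * (f (x + h • e) ^ 2 + f x ^ 2)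
        = 2 * (2 / h ^ 2 * (f (x + h • e) ^ 2 + f x ^ 2)) := by ring
    nlinarith [sq_nonneg (D x + 2 * A)]
  have ii : ∀ F : E → ℝ, Continuous F → Integrable F (vol.restrict K') := fun F hF =>
    hF.continuousOn.integrableOn_compact hK'c
  have cΔ0 : Continuous (Δ φ₀) := by simp only [hΔ]; fun_prop
  have cΔ1 : Continuous (Δ φ₁) := by simp only [hΔ]; fun_prop
  have part2 : ∫ x in K', D x ^ 2 ∂vol ≤ 8 / h ^ 2 * V + 16 * R ^ 2 * τ := by
    refine (integral_mono_ae (hDi.mono_set hK'K) (ii _ (by fun_prop)) hpt).trans ?_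
    rw [integral_add (ii _ (by fun_prop)) (ii _ (by fun_prop)), integral_const_mul,
      integral_const_mul, integral_add (ii _ (by fun_prop)) (ii _ (by fun_prop)),
      integral_add (ii _ cΔ0) (ii _ cΔ1), shift_integral vol K' (h • e) (fun x => f x ^ 2)]
    have s1 := hsq _ (hpre _ hhe).2.1
    have s2 := hsq _ hK'K
    have s3 := hΔint φ₀ h0.lip
    have s4 := hΔint φ₁ h1.lip
    have s5 : 4 / h ^ 2 * (∫ x in (fun x => x + -(h • e)) ⁻¹' K', f x ^ 2 ∂vol
        + ∫ x in K', f x ^ 2 ∂vol) ≤ 4 / h ^ 2 * (V + V) := by gcongr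
    have s6 : 4 * R * (∫ x in K', Δ φ₀ x ∂vol + ∫ x in K', Δ φ₁ x ∂vol)
        ≤ 4 * R * (2 * R * τ + 2 * R * τ) := by gcongr
    have s7 : 4 / h ^ 2 * (V + V) = 8 / h ^ 2 * V := by ring
    nlinarith
  have := setIntegral_sdiff hK'm hDi hK'K
  linarith

lemma gn_norm (vol : Measure E) [vol.IsAddHaarMeasure] {K : Set E} (hK : IsCompact K)
    (hKv : Convex ℝ K) {x₀ : E} {r : ℝ} (hr : 0 < r) (hball : Metric.closedBall x₀ r ⊆ K)
    {R : ℝ} {T₀ T₁ : E → E} {φ₀ φ₁ : E → ℝ} (h0 : Pot (vol.restrict K) R T₀ φ₀)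
    (h1 : Pot (vol.restrict K) R T₁ φ₁) (c : ℝ) {h : ℝ} (hh : 0 < h) (hhr : h ≤ r) :
    ∫ x in K, ‖T₀ x - T₁ x‖ ^ 2 ∂vol
      ≤ Module.finrank ℝ E * (8 / h ^ 2 * ∫ x in K, (φ₁ x - φ₀ x - c) ^ 2 ∂vol
        + 20 * R ^ 2 * (Module.finrank ℝ E * (h / r) * vol.real K)) := by
  have hfin : IsFiniteMeasure (vol.restrict K) := isFiniteMeasure_restrict.mpr hK.measure_lt_top.ne
  set b := stdOrthonormalBasis ℝ E with hb
  have hR := h0.R0
  simp only [← b.sum_sq_inner_left]
  rw [integral_finsetSum]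
  · refine (Finset.sum_le_sum fun j _ =>
      gn_dir vol hK hKv hr hball h0 h1 c (b.orthonormal.1 j) hh hhr).trans ?_
    rw [Finset.sum_const, Finset.card_univ, Fintype.card_fin, nsmul_eq_mul]
  · intro j _
    refine Integrable.of_bound (((h0.meas.sub h1.meas).inner measurable_const).pow_const 2
      ).aestronglyMeasurable (4 * R ^ 2) ?_
    filter_upwards [h0.bdd, h1.bdd] with x hx hx'
    have h2 : |⟪T₀ x - T₁ x, b j⟫| ≤ 2 * R := by
      refine (abs_real_inner_le_norm _ _).trans ?_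
      rw [b.orthonormal.1 j, mul_one]
      linarith [norm_sub_le (T₀ x) (T₁ x)]
    rw [Real.norm_of_nonneg (sq_nonneg _), ← sq_abs]
    nlinarith [abs_nonneg ⟪T₀ x - T₁ x, b j⟫]

end Crest.Agent.R82
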