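import Crest.Agent.R82.Chain

/-!
Lipschitz stability of the potentials with respect to the quadratic cost of a coupling.
-/

set_option autoImplicit false
set_option linter.unusedSectionVars false

namespace Crest.Agent.R82

open MeasureTheory Set
open scoped RealInnerProductSpace NNReal ENNReal

variable {E : Type*} [NormedAddCommGroup E] [InnerProductSpace ℝ E] [MeasurableSpace E]
  [BorelSpace E] [ProperSpace E]
variable {ρ : Measure E} {K : Set E} {a R : ℝ} {ι : Type*} [Fintype ι] {m : ι → ℝ} {g : E → ℝ}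

lemma upper_J (hS : Src ρ K a) (hg : Dens ρ K g) (hm : Wt m) {T : E → E} {φ χ : E → ℝ}
    (hP : Pot ρ R T φ) (hχ : CT K a φ χ) (w : ι → E) {Λ : ℝ} (hΛ : 0 < Λ) :
    dualJ ρ g m (fun i => Λ • w i) (fun i => Λ * χ (w i))
      ≤ Λ * (∫ x, φ x * (g x - 1) ∂ρ + ∫ x, ⟪x, T x⟫ ∂ρ
        + (∑ i, m i * χ (w i) - ∫ x, χ (T x) ∂ρ)) := by
  have cφ := continuous_of_lip hP.lip
  have cχ := continuous_of_lip hχ.lip
  have cg := hg.cont
  have h1 := hS.int_le_add hg (hm.continuous_lse (fun i => Λ • w i) (fun i => Λ * χ (w i)))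
    (v := fun x => Λ * φ x) (by fun_prop) (c := 0) (fun x hx => by
      rw [add_zero]
      apply hm.LSE_le
      intro i
      have := hχ.ge x hx (w i)
      simp only [expo, inner_smul_right]
      nlinarith)
  have h2 : ∫ x, χ (T x) ∂ρ + ∫ x, φ x ∂ρ ≤ ∫ x, ⟪x, T x⟫ ∂ρ := by
    have i1 : Integrable (fun x => χ (T x)) ρ :=
      hS.int_comp hP.meas hP.bdd (F := fun p => χ p.2) (by fun_prop)
    have i2 : Integrable (fun x => ⟪x, T x⟫) ρ :=
      hS.int_comp hP.meas hP.bdd (F := fun p => ⟪p.1, p.2⟫) (by fun_prop)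
    rw [← integral_add i1 (hS.int _ cφ)]
    apply integral_mono_ae (i1.add (hS.int _ cφ)) i2
    filter_upwards [hP.good] with x hx
    have := hχ.le (T x) (⟪x, T x⟫ - φ x) (fun x' _ => by
      have := hx.2 x'
      rw [inner_sub_left] at this
      linarith)
    simp only [Pi.add_apply]
    linarith
  have h3 : ∫ x, Λ * φ x * g x ∂ρ = Λ * (∫ x, φ x * (g x - 1) ∂ρ + ∫ x, φ x ∂ρ) := by
    rw [← hS.add (by fun_prop) cφ, ← integral_const_mul]
    congr 1; ext x; ring
  have h4 : ∑ i, m i * (Λ * χ (w i)) = Λ * ∑ i, m i * χ (w i) := by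
    rw [Finset.mul_sum]; congr 1; ext i; ring
  unfold dualJ
  rw [h4]
  nlinarith

lemma lower_J (hS : Src ρ K a) (hg : Dens ρ K g) (hm : Wt m) (hR : 0 ≤ R) {w : ι → E}
    (hw : ∀ i, ‖w i‖ ≤ R) {Λ : ℝ} (hΛ : 0 < Λ) (ψ : ι → ℝ) :
    ∃ θ χ : E → ℝ, (∀ x x', θ x - θ x' ≤ R * ‖x - x'‖) ∧ CT K a θ χ ∧
      Λ * (∫ x, θ x * g x ∂ρ + ∑ i, m i * χ (w i)) + ∑ i, m i * Real.log (m i)
        ≤ dualJ ρ g m (fun i => Λ • w i) ψ := by
  have hprob := hS.prob
  set θ := fun x => lse m (fun i => Λ • w i) ψ x / Λ with hθ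
  have hlip : ∀ x x', θ x - θ x' ≤ R * ‖x - x'‖ := by
    intro x x'
    have := hm.LSE_le_add (α := expo (fun i => Λ • w i) ψ x) (β := expo (fun i => Λ • w i) ψ x')
      (c := Λ * (R * ‖x - x'‖)) (fun i => by
        simp only [expo, inner_smul_right]
        have h1 : ⟪x - x', w i⟫ ≤ R * ‖x - x'‖ := by
          refine (real_inner_le_norm _ _).trans ?_
          rw [mul_comm]; gcongr; exact hw i
        rw [inner_sub_left] at h1
        nlinarith)
    simp only [hθ, lse]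
    rw [← sub_div, div_le_iff₀ hΛ]
    linarith
  obtain ⟨x₀, hx₀⟩ := hS.ae_mem.exists
  obtain ⟨χ, hχ⟩ := exists_CT ⟨x₀, hx₀⟩ hS.norm_le hR hlip
  refine ⟨θ, χ, hlip, hχ, ?_⟩
  have h1 : ∀ i, Λ * χ (w i) + Real.log (m i) ≤ ψ i := by
    intro i
    have := hχ.le (w i) ((ψ i - Real.log (m i)) / Λ) (fun x _ => by
      have h2 := hm.le_LSE (expo (fun i => Λ • w i) ψ x) i
      simp only [expo, inner_smul_right] at h2
      simp only [hθ, lse]
      rw [le_div_iff₀ hΛ, sub_mul, div_mul_cancel₀ _ hΛ.ne']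
      linarith)
    rw [le_div_iff₀ hΛ] at this
    linarith
  have h2 : ∑ i, m i * (Λ * χ (w i) + Real.log (m i)) ≤ ∑ i, m i * ψ i :=
    Finset.sum_le_sum fun i _ => mul_le_mul_of_nonneg_left (h1 i) (hm.pos i).le
  have h3 : ∑ i, m i * (Λ * χ (w i) + Real.log (m i))
      = Λ * ∑ i, m i * χ (w i) + ∑ i, m i * Real.log (m i) := by
    rw [Finset.mul_sum, ← Finset.sum_add_distrib]; congr 1; ext i; ring
  have h4 : Λ * ∫ x, θ x * g x ∂ρ = ∫ x, lse m (fun i => Λ • w i) ψ x * g x ∂ρ := by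
    rw [← integral_const_mul]; congr 1; ext x
    simp only [hθ]; field_simp
  unfold dualJ
  linarith

lemma le_of_forall_small {A B c : ℝ} (h : ∀ δ : ℝ, 0 < δ → A ≤ B + c * δ) : A ≤ B := by
  apply le_of_forall_pos_le_add
  intro ε hε
  have h1 := h (ε / (|c| + 1)) (by positivity)
  have h2 : c * (ε / (|c| + 1)) ≤ ε := by
    rw [← mul_div_assoc, div_le_iff₀ (by positivity)]
    nlinarith [le_abs_self c]
  linarith

/-- The key estimate: the variance of the difference of the two potentials is controlled by the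
quadratic cost of any coupling of the targets. -/
theorem variance_le (hS : Src ρ K a) {x₀ : E} (hx₀ : x₀ ∈ K) (hsc : Scal ρ x₀)
    {T₀ T₁ : E → E} {φ₀ φ₁ : E → ℝ} (h0 : Pot ρ R T₀ φ₀) (h1 : Pot ρ R T₁ φ₁)
    {π : Measure (E × E)} (hπ0 : π.map Prod.fst = ρ.map T₀) (hπ1 : π.map Prod.snd = ρ.map T₁) :
    ∫ x, (φ₁ x - φ₀ x - ∫ x, (φ₁ x - φ₀ x) ∂ρ) ^ 2 ∂ρ
      ≤ 59228 * a ^ 2 * ∫ p, ‖p.2 - p.1‖ ^ 2 ∂π := by
  have hprob := hS.prob
  have hR := h0.R0
  have ha := hS.a_pos
  have c0 := continuous_of_lip h0.lip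
  have c1 := continuous_of_lip h1.lip
  have hπprob : IsProbabilityMeasure π := by
    constructor
    have := congrArg (fun μ : Measure E => μ univ) hπ0
    simpa [Measure.map_apply measurable_fst, Measure.map_apply h0.meas] using this
  set S := Metric.closedBall (0 : E) R ×ˢ Metric.closedBall (0 : E) R with hSdef
  have hSc : IsCompact S := (isCompact_closedBall _ _).prod (isCompact_closedBall _ _)
  have hmb : MeasurableSet {y : E | ‖y‖ ≤ R} := measurableSet_le measurable_norm measurable_const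
  have hπS : ∀ᵐ p ∂π, p ∈ S := by
    have a0 : ∀ᵐ y ∂(π.map Prod.fst), ‖y‖ ≤ R := by
      rw [hπ0]; exact (ae_map_iff h0.meas.aemeasurable hmb).mpr h0.bdd
    have a1 : ∀ᵐ y ∂(π.map Prod.snd), ‖y‖ ≤ R := by
      rw [hπ1]; exact (ae_map_iff h1.meas.aemeasurable hmb).mpr h1.bdd
    filter_upwards [ae_of_ae_map measurable_fst.aemeasurable a0,
      ae_of_ae_map measurable_snd.aemeasurable a1] with p hp hp'
    exact ⟨by simpa using hp, by simpa using hp'⟩
  have hint : ∀ F : E × E → ℝ, Continuous F → Integrable F π := by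
    intro F hF
    obtain ⟨C, hC⟩ := hSc.exists_bound_of_continuousOn hF.continuousOn
    exact Integrable.of_bound hF.aestronglyMeasurable C (hπS.mono fun p hp => hC p hp)
  have hfst : ∀ χ : E → ℝ, Continuous χ → ∫ p, χ p.1 ∂π = ∫ x, χ (T₀ x) ∂ρ := by
    intro χ hχ
    rw [← integral_map measurable_fst.aemeasurable hχ.aestronglyMeasurable, hπ0,
      integral_map h0.meas.aemeasurable hχ.aestronglyMeasurable]
  have hsnd : ∀ χ : E → ℝ, Continuous χ → ∫ p, χ p.2 ∂π = ∫ x, χ (T₁ x) ∂ρ := by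
    intro χ hχ
    rw [← integral_map measurable_snd.aemeasurable hχ.aestronglyMeasurable, hπ1,
      integral_map h1.meas.aemeasurable hχ.aestronglyMeasurable]
  set W := ∫ p, ‖p.2 - p.1‖ ^ 2 ∂π with hW
  set c := ∫ x, (φ₁ x - φ₀ x) ∂ρ with hc
  set h := fun x => -(φ₁ x - φ₀ x - c) with hh
  have ch : Continuous h := by simp only [hh]; fun_prop
  set V := ∫ x, (φ₁ x - φ₀ x - c) ^ 2 ∂ρ with hV
  have hmean : ∫ x, h x ∂ρ = 0 := by
    simp only [hh]
    rw [integral_neg, hS.sub (by fun_prop) (by fun_prop), hS.const, ← hc]; simp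
  set M := 4 * R * a + 1 with hM
  have hM0 : 0 < M := by positivity
  have hhM : ∀ x ∈ K, |h x| ≤ M := by
    intro x hx
    have key : ∀ x' ∈ K, |(φ₁ x - φ₀ x) - (φ₁ x' - φ₀ x')| ≤ 4 * R * a := by
      intro x' hx'
      have d0 := abs_sub_le_of_lip h0.lip x x'
      have d1 := abs_sub_le_of_lip h1.lip x x'
      have d2 : R * ‖x - x'‖ ≤ R * (2 * a) := by
        gcongr
        linarith [norm_sub_le x x', hS.norm_le x hx, hS.norm_le x' hx']
      rw [abs_le] at d0 d1 ⊢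
      constructor <;> linarith [d0.1, d0.2, d1.1, d1.2]
    have u1 : c ≤ ∫ _x', (φ₁ x - φ₀ x + 4 * R * a) ∂ρ :=
      hS.mono (by fun_prop) (by fun_prop) fun x' hx' => by linarith [(abs_le.mp (key x' hx')).1]
    have u2 : ∫ _x', (φ₁ x - φ₀ x - 4 * R * a) ∂ρ ≤ c :=
      hS.mono (by fun_prop) (by fun_prop) fun x' hx' => by linarith [(abs_le.mp (key x' hx')).2]
    rw [hS.const] at u1 u2
    simp only [hh]
    rw [abs_le]
    constructor <;> linarith
  have hVh : ∫ x, φ₀ x * h x ∂ρ - ∫ x, φ₁ x * h x ∂ρ = V := by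
    rw [← hS.sub (by fun_prop) (by fun_prop)]
    have : ∫ x, φ₀ x * h x - φ₁ x * h x ∂ρ = ∫ x, (φ₁ x - φ₀ x - c) ^ 2 - c * h x ∂ρ := by
      congr 1; ext x; simp only [hh]; ring
    rw [this, hS.sub (by fun_prop) (by fun_prop), integral_const_mul, hmean]
    ring
  obtain ⟨χ₀, hχ₀⟩ := exists_CT ⟨x₀, hx₀⟩ hS.norm_le hR h0.lip
  obtain ⟨χ₁, hχ₁⟩ := exists_CT ⟨x₀, hx₀⟩ hS.norm_le hR h1.lip
  have main : ∀ n : ℕ, 0 < n → V / 2 ≤ 29614 * a ^ 2 * W + 8 * M * R * a / n := by
    intro n hn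
    obtain ⟨C, hC0, hC⟩ := chain_bound hS hx₀ hsc n hn
    set s := 1 / (M * (C + 2)) with hs
    have hs0 : 0 < s := by positivity
    have hsM : s * M * (C + 2) = 1 := by rw [hs]; field_simp
    have hsM1 : s * M ≤ 1 / 2 := by nlinarith [mul_pos hs0 hM0]
    have hsM2 : s * M * C ≤ 1 := by nlinarith [mul_pos hs0 hM0]
    set g := fun x => 1 + s * h x with hgdef
    have hg : Dens ρ K g := by
      refine ⟨by simp only [hgdef]; fun_prop, fun x hx => ?_, fun x hx => ?_, ?_⟩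
      · have := (abs_le.mp (hhM x hx)).1
        simp only [hgdef]; nlinarith
      · have := (abs_le.mp (hhM x hx)).2
        simp only [hgdef]; nlinarith
      · simp only [hgdef]
        rw [hS.add (by fun_prop) (by fun_prop), integral_const_mul, hmean, hS.const]; ring
    have hη : ∫ x, (g x - 1) ^ 2 ∂ρ = s ^ 2 * V := by
      rw [hV, ← integral_const_mul]; congr 1; ext x; simp only [hgdef, hh]; ring
    have step : s * (V / 2) ≤ s * (29614 * a ^ 2 * W + 8 * M * R * a / n) := by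
      apply le_of_forall_small (c := 4 * a + 29614 * s * a ^ 2 * (8 * R))
      intro δ hδ
      obtain ⟨ι, _, m, pt, hm, hpt, hF⟩ := exists_discretization π hSc hπS hδ
      set y := fun i => (pt i).1 with hy
      set z := fun i => (pt i).2 with hz
      have hyR : ∀ i, ‖y i‖ ≤ R := fun i => by simpa using (hpt i).1
      have hzR : ∀ i, ‖z i‖ ≤ R := fun i => by simpa using (hpt i).2
      have dy : ∀ χ : E → ℝ, (∀ y y', χ y - χ y' ≤ a * ‖y - y'‖) →
          |∑ i, m i * χ (y i) - ∫ x, χ (T₀ x) ∂ρ| ≤ a * δ := by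
        intro χ hχ
        have cχ := continuous_of_lip hχ
        rw [← hfst χ cχ]
        apply hF (fun p => χ p.1) a (hint _ (by fun_prop)) ha.le
        intro p _ q _
        refine (abs_sub_le_of_lip hχ _ _).trans ?_
        gcongr
        rw [← dist_eq_norm, Prod.dist_eq]
        exact le_max_left _ _
      have dz : ∀ χ : E → ℝ, (∀ y y', χ y - χ y' ≤ a * ‖y - y'‖) →
          |∑ i, m i * χ (z i) - ∫ x, χ (T₁ x) ∂ρ| ≤ a * δ := by
        intro χ hχ
        have cχ := continuous_of_lip hχ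
        rw [← hsnd χ cχ]
        apply hF (fun p => χ p.2) a (hint _ (by fun_prop)) ha.le
        intro p _ q _
        refine (abs_sub_le_of_lip hχ _ _).trans ?_
        gcongr
        rw [← dist_eq_norm, Prod.dist_eq]
        exact le_max_right _ _
      have dW : ∑ i, m i * ‖z i - y i‖ ^ 2 ≤ W + 8 * R * δ := by
        have := hF (fun p => ‖p.2 - p.1‖ ^ 2) (8 * R) (hint _ (by fun_prop)) (by positivity) (by
          intro p hp q hq
          have p1 : ‖p.1‖ ≤ R := by simpa using hp.1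
          have p2 : ‖p.2‖ ≤ R := by simpa using hp.2
          have q1 : ‖q.1‖ ≤ R := by simpa using hq.1
          have q2 : ‖q.2‖ ≤ R := by simpa using hq.2
          have e1 : ‖p.1 - q.1‖ ≤ dist p q := by
            rw [← dist_eq_norm, Prod.dist_eq]; exact le_max_left _ _
          have e2 : ‖p.2 - q.2‖ ≤ dist p q := by
            rw [← dist_eq_norm, Prod.dist_eq]; exact le_max_right _ _
          have e3 : |‖p.2 - p.1‖ - ‖q.2 - q.1‖| ≤ 2 * dist p q := by
            refine (abs_norm_sub_norm_le _ _).trans ?_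
            have : p.2 - p.1 - (q.2 - q.1) = (p.2 - q.2) - (p.1 - q.1) := by abel
            rw [this]
            linarith [norm_sub_le (p.2 - q.2) (p.1 - q.1)]
          have e4 : ‖p.2 - p.1‖ + ‖q.2 - q.1‖ ≤ 4 * R := by
            linarith [norm_sub_le p.2 p.1, norm_sub_le q.2 q.1]
          rw [sq_sub_sq, abs_mul, abs_of_nonneg (by positivity)]
          calc _ ≤ (4 * R) * (2 * dist p q) := by gcongr
            _ = _ := by ring)
        linarith [(abs_le.mp this).2]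
      set ent := ∑ i, m i * Real.log (m i) with hent
      apply le_of_forall_small (c := -2 * ent)
      intro ε hε
      set Λ := 1 / ε with hΛdef
      have hΛ : 0 < Λ := by positivity
      obtain ⟨ψ₃, ψ₄, h4⟩ := hS.four_point hg hm (fun i => Λ • y i) (fun i => Λ • z i)
        (lam := 34 * s / Λ) (by positivity)
      have h4' := h4 (fun i => Λ * χ₁ (z i)) (fun i => Λ * χ₀ (y i))
      have u1 := upper_J hS hg hm h1 hχ₁ z hΛ
      have u0 := upper_J hS hS.dens_one hm h0 hχ₀ y hΛ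
      obtain ⟨θ₃, χ₃, l3, k3, j3⟩ := lower_J hS hg hm hR hyR hΛ ψ₃
      obtain ⟨θ₄, χ₄, l4, k4, j4⟩ := lower_J hS hS.dens_one hm hR hzR hΛ ψ₄
      have cθ₃ := continuous_of_lip l3
      have cθ₄ := continuous_of_lip l4
      have cχ₃ := continuous_of_lip k3.lip
      have cχ₄ := continuous_of_lip k4.lip
      set k₀ := ∫ x, ⟪x, T₀ x⟫ ∂ρ with hk₀
      set k₁ := ∫ x, ⟪x, T₁ x⟫ ∂ρ with hk₁
      -- weak duality for the fourth term
      have w4 : k₁ ≤ ∫ x, θ₄ x * 1 ∂ρ + ∫ x, χ₄ (T₁ x) ∂ρ := by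
        have i1 : Integrable (fun x => χ₄ (T₁ x)) ρ :=
          hS.int_comp h1.meas h1.bdd (F := fun p => χ₄ p.2) (by fun_prop)
        have i2 : Integrable (fun x => ⟪x, T₁ x⟫) ρ :=
          hS.int_comp h1.meas h1.bdd (F := fun p => ⟪p.1, p.2⟫) (by fun_prop)
        have i3 := hS.int (fun x => θ₄ x * 1) (by fun_prop)
        rw [← integral_add i3 i1]
        apply integral_mono_ae i2 (i3.add i1)
        filter_upwards [hS.ae_mem] with x hx
        have := k4.ge x hx (T₁ x)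
        simp only [Pi.add_apply]
        linarith
      -- the gap for the third term
      set gap := ∫ x, (θ₃ x + χ₃ (T₀ x) - ⟪x, T₀ x⟫) ∂ρ with hgap
      have w3 : gap = ∫ x, θ₃ x ∂ρ + ∫ x, χ₃ (T₀ x) ∂ρ - k₀ := by
        have i1 : Integrable (fun x => χ₃ (T₀ x)) ρ :=
          hS.int_comp h0.meas h0.bdd (F := fun p => χ₃ p.2) (by fun_prop)
        have i2 : Integrable (fun x => ⟪x, T₀ x⟫) ρ :=
          hS.int_comp h0.meas h0.bdd (F := fun p => ⟪p.1, p.2⟫) (by fun_prop)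
        have i3 : Integrable (fun x => θ₃ x + χ₃ (T₀ x)) ρ := (hS.int _ cθ₃).add i1
        rw [hgap, integral_sub i3 i2, integral_add (hS.int _ cθ₃) i1]
      have hgap0 : 0 ≤ gap := by
        apply integral_nonneg_of_ae
        filter_upwards [hS.ae_mem] with x hx
        have := k3.ge x hx (T₀ x)
        simp only [Pi.zero_apply]
        linarith
      have w3' : ∫ x, θ₃ x * g x ∂ρ = ∫ x, θ₃ x ∂ρ + s * ∫ x, θ₃ x * h x ∂ρ := by
        rw [← integral_const_mul, ← hS.add (by fun_prop) (by fun_prop)]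
        congr 1; ext x; simp only [hgdef]; ring
      have w1 : ∫ x, φ₁ x * (g x - 1) ∂ρ = s * ∫ x, φ₁ x * h x ∂ρ := by
        rw [← integral_const_mul]
        congr 1; ext x; simp only [hgdef]; ring
      have ch3 := hC R T₀ φ₀ θ₃ χ₃ h0 l3 k3
      rw [← hgap] at ch3
      have w5 : ∫ x, φ₀ x * h x ∂ρ - ∫ x, θ₃ x * h x ∂ρ ≤ M * (8 * R * a / n + C * gap) := by
        have e1 : ∫ x, φ₀ x * h x ∂ρ - ∫ x, θ₃ x * h x ∂ρ
            = ∫ x, ((φ₀ x - θ₃ x) - (φ₀ x₀ - θ₃ x₀)) * h x ∂ρ := by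
          have : ∫ x, ((φ₀ x - θ₃ x) - (φ₀ x₀ - θ₃ x₀)) * h x ∂ρ
              = ∫ x, (φ₀ x * h x - θ₃ x * h x) - (φ₀ x₀ - θ₃ x₀) * h x ∂ρ := by
            congr 1; ext x; ring
          rw [this, hS.sub (by fun_prop) (by fun_prop), hS.sub (by fun_prop) (by fun_prop),
            integral_const_mul, hmean]
          ring
        rw [e1]
        refine le_trans ?_ (mul_le_mul_of_nonneg_left ch3 hM0.le)
        rw [← integral_const_mul]
        apply hS.mono (by fun_prop) (by fun_prop)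
        intro x hx
        refine (le_abs_self _).trans ?_
        rw [abs_mul, mul_comm]
        exact mul_le_mul_of_nonneg_right (hhM x hx) (abs_nonneg _)
      have w6 : ∑ i, m i * ‖Λ • z i - Λ • y i‖ ^ 2 = Λ ^ 2 * ∑ i, m i * ‖z i - y i‖ ^ 2 := by
        rw [Finset.mul_sum]; congr 1; ext i
        rw [← smul_sub, norm_smul, Real.norm_of_nonneg hΛ.le]; ring
      rw [w6, hη] at h4'
      have w7 : 17 * (s ^ 2 * V) / (34 * s / Λ)
          + 871 * (34 * s / Λ) * a ^ 2 * (Λ ^ 2 * ∑ i, m i * ‖z i - y i‖ ^ 2)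
          = Λ * (s * V / 2 + 29614 * s * a ^ 2 * ∑ i, m i * ‖z i - y i‖ ^ 2) := by
        field_simp; ring
      rw [w7] at h4'
      simp only [sub_self, mul_zero, integral_zero, zero_add] at u0
      have d1 := (abs_le.mp (dz χ₁ hχ₁.lip)).2
      have d0 := (abs_le.mp (dy χ₀ hχ₀.lip)).2
      have d3 := (abs_le.mp (dy χ₃ k3.lip)).1
      have d4 := (abs_le.mp (dz χ₄ k4.lip)).1
      rw [w1] at u1
      rw [w3'] at j3
      set Wδ := ∑ i, m i * ‖z i - y i‖ ^ 2 with hWδ
      have fin1 : Λ * ((∫ x, θ₃ x ∂ρ + s * ∫ x, θ₃ x * h x ∂ρ + ∑ i, m i * χ₃ (y i))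
            + (∫ x, θ₄ x * 1 ∂ρ + ∑ i, m i * χ₄ (z i)) - (s * V / 2 + 29614 * s * a ^ 2 * Wδ)
            - (s * ∫ x, φ₁ x * h x ∂ρ + k₁ + (∑ i, m i * χ₁ (z i) - ∫ x, χ₁ (T₁ x) ∂ρ))
            - (k₀ + (∑ i, m i * χ₀ (y i) - ∫ x, χ₀ (T₀ x) ∂ρ)) + 2 * ent * ε) ≤ 0 := by
        have : Λ * (2 * ent * ε) = 2 * ent := by rw [hΛdef]; field_simp
        linarith
      have fin2 := nonpos_of_mul_nonpos_right fin1 hΛ
      have fin3 : s * (∫ x, φ₀ x * h x ∂ρ - ∫ x, θ₃ x * h x ∂ρ)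
          ≤ s * (8 * M * R * a / n) + gap := by
        have q1 := mul_le_mul_of_nonneg_left w5 hs0.le
        have q2 := mul_le_mul_of_nonneg_right hsM2 hgap0
        have q3 : s * (M * (8 * R * a / n + C * gap))
          = s * (8 * M * R * a / n) + s * M * C * gap := by ring
        linarith
      have fin4 : 29614 * s * a ^ 2 * Wδ ≤ 29614 * s * a ^ 2 * (W + 8 * R * δ) :=
        mul_le_mul_of_nonneg_left dW (by positivity)
      have fin5 : s * V = s * ∫ x, φ₀ x * h x ∂ρ - s * ∫ x, φ₁ x * h x ∂ρ := by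
        rw [← hVh]; ring
      linarith
    exact le_of_mul_le_mul_left step hs0
  have lim : V / 2 ≤ 29614 * a ^ 2 * W := by
    apply le_of_forall_pos_le_add
    intro ε hε
    obtain ⟨n, hn⟩ := exists_nat_gt (8 * M * R * a / ε)
    have hn0 : (0 : ℝ) < n := lt_of_le_of_lt (by positivity) hn
    have := main n (by exact_mod_cast hn0)
    have h3 : 8 * M * R * a / n ≤ ε := by
      rw [div_le_iff₀ hn0]
      rw [div_lt_iff₀ hε] at hn
      linarith
    linarith
  linarith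

end Crest.Agent.R82
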