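import Crest.Agent.R82.Talag

/-!
The soft (log-sum-exp) semi-discrete dual problem and the four-point inequality.
-/

set_option autoImplicit false
set_option linter.unusedSectionVars false

namespace Crest.Agent.R82

open MeasureTheory Set
open scoped RealInnerProductSpace

variable {ι : Type*} [Fintype ι]

/-- Weighted log-sum-exp. -/
noncomputable def LSE (m α : ι → ℝ) : ℝ := Real.log (∑ i, m i * Real.exp (α i))

/-- The Gibbs weights. -/
noncomputable def gibbs (m α : ι → ℝ) (i : ι) : ℝ := m i * Real.exp (α i - LSE m α)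

/-- Positive weights summing to one. -/
structure Wt (m : ι → ℝ) : Prop where
  pos : ∀ i, 0 < m i
  sum : ∑ i, m i = 1

variable {m : ι → ℝ}

lemma Wt.nonempty (hm : Wt m) : Nonempty ι := by
  by_contra h
  rw [not_nonempty_iff] at h
  have := hm.sum
  simp at this

lemma Wt.S_pos (hm : Wt m) (α : ι → ℝ) : 0 < ∑ i, m i * Real.exp (α i) := by
  have := hm.nonempty
  exact Finset.sum_pos (fun i _ => mul_pos (hm.pos i) (Real.exp_pos _)) Finset.univ_nonempty

lemma Wt.exp_LSE (hm : Wt m) (α : ι → ℝ) : Real.exp (LSE m α) = ∑ i, m i * Real.exp (α i) :=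
  Real.exp_log (hm.S_pos α)

lemma Wt.gibbs_pos (hm : Wt m) (α : ι → ℝ) (i : ι) : 0 < gibbs m α i :=
  mul_pos (hm.pos i) (Real.exp_pos _)

lemma Wt.sum_gibbs_exp (hm : Wt m) (α β : ι → ℝ) :
    ∑ i, gibbs m α i * Real.exp (β i - α i) = Real.exp (LSE m β - LSE m α) := by
  rw [Real.exp_sub, hm.exp_LSE β, Finset.sum_div]
  apply Finset.sum_congr rfl
  intro i _
  rw [gibbs, mul_assoc, ← Real.exp_add, mul_div_assoc, ← Real.exp_sub]
  congr 2; ring

lemma Wt.sum_gibbs (hm : Wt m) (α : ι → ℝ) : ∑ i, gibbs m α i = 1 := by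
  simpa using hm.sum_gibbs_exp α α

lemma Wt.jensen (hm : Wt m) (α β : ι → ℝ) :
    LSE m α + ∑ i, gibbs m α i * (β i - α i) ≤ LSE m β := by
  set c := ∑ i, gibbs m α i * (β i - α i) with hc
  have h1 : Real.exp c ≤ Real.exp (LSE m β - LSE m α) := by
    rw [← hm.sum_gibbs_exp]
    calc Real.exp c = ∑ i, gibbs m α i * (Real.exp c * (β i - α i - c + 1)) := by
          have : ∀ i, gibbs m α i * (Real.exp c * (β i - α i - c + 1))
            = Real.exp c * (gibbs m α i * (β i - α i)) + Real.exp c * (1 - c) * gibbs m α i := by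
            intro i; ring
          simp only [this, Finset.sum_add_distrib, ← Finset.mul_sum, hm.sum_gibbs, ← hc]
          ring
      _ ≤ _ := by
          apply Finset.sum_le_sum
          intro i _
          apply mul_le_mul_of_nonneg_left _ (hm.gibbs_pos α i).le
          have h3 : Real.exp (β i - α i) = Real.exp c * Real.exp (β i - α i - c) := by
            rw [← Real.exp_add]; congr 1; ring
          rw [h3]
          exact mul_le_mul_of_nonneg_left (Real.add_one_le_exp _) (Real.exp_pos _).le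
  have := Real.exp_le_exp.mp h1
  linarith

lemma Wt.upper (hm : Wt m) (α β : ι → ℝ) :
    LSE m β ≤ LSE m α + (∑ i, gibbs m α i * Real.exp (β i - α i) - 1) := by
  rw [hm.sum_gibbs_exp]
  have := Real.add_one_le_exp (LSE m β - LSE m α)
  linarith

lemma Wt.LSE_le_add (hm : Wt m) {α β : ι → ℝ} {c : ℝ} (h : ∀ i, α i ≤ β i + c) :
    LSE m α ≤ LSE m β + c := by
  have h1 := hm.jensen α β
  have h2 : ∑ i, gibbs m α i * (-c) ≤ ∑ i, gibbs m α i * (β i - α i) := by
    apply Finset.sum_le_sum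
    intro i _
    apply mul_le_mul_of_nonneg_left _ (hm.gibbs_pos α i).le
    linarith [h i]
  rw [← Finset.sum_mul, hm.sum_gibbs] at h2
  linarith

lemma Wt.LSE_const (hm : Wt m) (c : ℝ) : LSE m (fun _ => c) = c := by
  rw [LSE, ← Finset.sum_mul, hm.sum, one_mul, Real.log_exp]

lemma Wt.LSE_le (hm : Wt m) {α : ι → ℝ} {c : ℝ} (h : ∀ i, α i ≤ c) : LSE m α ≤ c := by
  have := hm.LSE_le_add (α := α) (β := fun _ => c) (c := 0) (by simpa using h)
  rwa [hm.LSE_const, add_zero] at this

lemma Wt.le_LSE (hm : Wt m) (α : ι → ℝ) (i : ι) : Real.log (m i) + α i ≤ LSE m α := by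
  rw [← Real.exp_le_exp, hm.exp_LSE, Real.exp_add, Real.exp_log (hm.pos i)]
  exact Finset.single_le_sum (f := fun i => m i * Real.exp (α i))
    (fun j _ => (mul_pos (hm.pos j) (Real.exp_pos _)).le) (Finset.mem_univ i)

lemma Wt.gibbs_mid (hm : Wt m) {α β γ : ι → ℝ} (h : ∀ i, α i + β i = 2 * γ i) (i : ι) :
    gibbs m α i * gibbs m β i ≤ gibbs m γ i ^ 2 := by
  have h1 := hm.jensen γ α
  have h2 := hm.jensen γ β
  have h3 : ∑ i, gibbs m γ i * (α i - γ i) + ∑ i, gibbs m γ i * (β i - γ i) = 0 := by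
    rw [← Finset.sum_add_distrib]
    apply Finset.sum_eq_zero
    intro j _
    have : α j - γ j + (β j - γ j) = 0 := by linarith [h j]
    rw [← mul_add, this, mul_zero]
  have h4 : Real.exp (α i - LSE m α) * Real.exp (β i - LSE m β)
      ≤ Real.exp (γ i - LSE m γ) ^ 2 := by
    rw [← Real.exp_add, ← Real.exp_nat_mul, Real.exp_le_exp]
    push_cast
    linarith [h i]
  calc gibbs m α i * gibbs m β i
      = m i ^ 2 * (Real.exp (α i - LSE m α) * Real.exp (β i - LSE m β)) := by
        simp only [gibbs]; ring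
    _ ≤ m i ^ 2 * Real.exp (γ i - LSE m γ) ^ 2 := by gcongr
    _ = _ := by simp only [gibbs]; ring

variable {E : Type*} [NormedAddCommGroup E] [InnerProductSpace ℝ E] [MeasurableSpace E]
variable {ρ : Measure E} {K : Set E} {a : ℝ}

/-- The affine exponents. -/
def expo (w : ι → E) (ψ : ι → ℝ) (x : E) (i : ι) : ℝ := ⟪x, w i⟫ - ψ i

/-- The soft potential. -/
noncomputable def lse (m : ι → ℝ) (w : ι → E) (ψ : ι → ℝ) (x : E) : ℝ := LSE m (expo w ψ x)

/-- The soft cells. -/
noncomputable def cell (m : ι → ℝ) (w : ι → E) (ψ : ι → ℝ) (i : ι) (x : E) : ℝ :=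
  gibbs m (expo w ψ x) i

/-- The soft dual functional. -/
noncomputable def dualJ (ρ : Measure E) (g : E → ℝ) (m : ι → ℝ) (w : ι → E) (ψ : ι → ℝ) : ℝ :=
  ∫ x, lse m w ψ x * g x ∂ρ + ∑ i, m i * ψ i

lemma Wt.continuous_lse (hm : Wt m) (w : ι → E) (ψ : ι → ℝ) : Continuous (lse m w ψ) := by
  unfold lse LSE expo
  apply Continuous.log (by fun_prop)
  intro x
  exact (hm.S_pos _).ne'

lemma Wt.continuous_cell (hm : Wt m) (w : ι → E) (ψ : ι → ℝ) (i : ι) :
    Continuous (cell m w ψ i) := by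
  have := hm.continuous_lse w ψ
  change Continuous fun x => m i * Real.exp (⟪x, w i⟫ - ψ i - lse m w ψ x)
  fun_prop

lemma Wt.cells (hm : Wt m) (w : ι → E) (ψ ψ' : ι → ℝ) :
    Cells (cell m w ψ) (cell m w ψ') (cell m w (fun i => (ψ i + ψ' i) / 2)) where
  cp := hm.continuous_cell w _
  cp' := hm.continuous_cell w _
  cq := hm.continuous_cell w _
  p0 := fun i _ => hm.gibbs_pos _ i
  p'0 := fun i _ => hm.gibbs_pos _ i
  q0 := fun i _ => hm.gibbs_pos _ i
  sp := fun _ => hm.sum_gibbs _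
  sp' := fun _ => hm.sum_gibbs _
  sq := fun _ => hm.sum_gibbs _
  mid := fun i x y => by
    apply hm.gibbs_mid
    intro j
    simp only [expo, inner_smul_left, inner_add_left]
    simp
    ring

/-- A density: continuous, between `1/2` and `2` on `K`, of total mass one. -/
structure Dens (ρ : Measure E) (K : Set E) (g : E → ℝ) : Prop where
  cont : Continuous g
  lo : ∀ x ∈ K, 1 / 2 ≤ g x
  hi : ∀ x ∈ K, g x ≤ 2
  mass : ∫ x, g x ∂ρ = 1

lemma Src.dens_one (hS : Src ρ K a) : Dens ρ K (fun _ => 1) :=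
  ⟨continuous_const, fun _ _ => by norm_num, fun _ _ => by norm_num, hS.const 1⟩

variable {g : E → ℝ}

lemma Src.int_le_add (hS : Src ρ K a) (hg : Dens ρ K g) {u v : E → ℝ} (hu : Continuous u)
    (hv : Continuous v) {c : ℝ} (h : ∀ x ∈ K, u x ≤ v x + c) :
    ∫ x, u x * g x ∂ρ ≤ ∫ x, v x * g x ∂ρ + c := by
  have := hg.cont
  have h1 : ∫ x, v x * g x ∂ρ + c = ∫ x, v x * g x + c * g x ∂ρ := by
    rw [hS.add (by fun_prop) (by fun_prop), integral_const_mul, hg.mass, mul_one]
  rw [h1]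
  apply hS.mono (by fun_prop) (by fun_prop)
  intro x hx
  have := hg.lo x hx
  nlinarith [h x hx]

lemma Src.exists_min (hS : Src ρ K a) (hg : Dens ρ K g) (hm : Wt m) (w : ι → E) :
    ∃ ψ, ∀ ψ', dualJ ρ g m w ψ ≤ dualJ ρ g m w ψ' := by
  have hne := hm.nonempty
  -- Lipschitz continuity
  have lip : ∀ ψ ψ' : ι → ℝ, dualJ ρ g m w ψ ≤ dualJ ρ g m w ψ' + 2 * dist ψ ψ' := by
    intro ψ ψ'
    have h1 : ∀ i, |ψ i - ψ' i| ≤ dist ψ ψ' := fun i => by
      rw [← Real.dist_eq]; exact dist_le_pi_dist ψ ψ' i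
    have h2 := hS.int_le_add hg (hm.continuous_lse w ψ) (hm.continuous_lse w ψ')
      (c := dist ψ ψ') (fun x _ => hm.LSE_le_add fun i => by
        simp only [expo]; linarith [(abs_le.mp (h1 i)).1])
    have h3 : ∑ i, m i * ψ i ≤ ∑ i, m i * (ψ' i + dist ψ ψ') :=
      Finset.sum_le_sum fun i _ => mul_le_mul_of_nonneg_left
        (by linarith [(abs_le.mp (h1 i)).2]) (hm.pos i).le
    simp only [mul_add, Finset.sum_add_distrib, ← Finset.sum_mul, hm.sum] at h3
    unfold dualJ
    linarith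
  have cont : Continuous (dualJ ρ g m w) := by
    apply LipschitzWith.continuous (K := 2)
    apply LipschitzWith.of_le_add_mul
    intro ψ ψ'
    simpa using lip ψ ψ'
  -- shift invariance
  have shift : ∀ (ψ : ι → ℝ) (c : ℝ), dualJ ρ g m w (fun i => ψ i - c) ≤ dualJ ρ g m w ψ := by
    intro ψ c
    have h2 := hS.int_le_add hg (hm.continuous_lse w (fun i => ψ i - c)) (hm.continuous_lse w ψ)
      (c := c) (fun x _ => hm.LSE_le_add fun i => by simp only [expo]; linarith)
    unfold dualJ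
    simp only [mul_sub, Finset.sum_sub_distrib, ← Finset.sum_mul, hm.sum]
    linarith
  obtain ⟨j0, hj0⟩ := Finite.exists_min m
  obtain ⟨j1, hj1⟩ := Finite.exists_max (fun i => ‖w i‖)
  set C := -Real.log (m j0) + a * ‖w j1‖ with hC
  -- coercivity
  have coer : ∀ (ψ : ι → ℝ) (i0 : ι), ψ i0 = 0 → (∀ i, 0 ≤ ψ i) → ∀ j,
      -C + m j0 * ψ j ≤ dualJ ρ g m w ψ := by
    intro ψ i0 hi0 hψ j
    have h2 := hS.int_le_add hg (u := fun _ => 0) continuous_const (hm.continuous_lse w ψ)
      (c := C) (fun x hx => by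
        have h3 := hm.le_LSE (expo w ψ x) i0
        have h4 : Real.log (m j0) ≤ Real.log (m i0) := Real.log_le_log (hm.pos _) (hj0 i0)
        have h5 : |⟪x, w i0⟫| ≤ a * ‖w j1‖ :=
          (abs_real_inner_le_norm _ _).trans
            (mul_le_mul (hS.norm_le x hx) (hj1 i0) (norm_nonneg _) hS.a_pos.le)
        simp only [expo, hi0] at h3
        unfold lse
        linarith [(abs_le.mp h5).1])
    have h6 : m j * ψ j ≤ ∑ i, m i * ψ i :=
      Finset.single_le_sum (f := fun i => m i * ψ i)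
        (fun i _ => mul_nonneg (hm.pos i).le (hψ i)) (Finset.mem_univ j)
    have h7 : m j0 * ψ j ≤ m j * ψ j := mul_le_mul_of_nonneg_right (hj0 j) (hψ j)
    simp only [zero_mul, integral_zero] at h2
    unfold dualJ
    linarith
  set M := |dualJ ρ g m w 0 + C| / m j0 with hM
  have hM0 : 0 ≤ M := div_nonneg (abs_nonneg _) (hm.pos j0).le
  have h0 : (0 : ι → ℝ) ∈ Icc (0 : ι → ℝ) (fun _ => M) := ⟨le_rfl, fun _ => hM0⟩
  obtain ⟨ψ, -, hψ⟩ := (isCompact_Icc (a := (0 : ι → ℝ)) (b := fun _ => M)).exists_isMinOn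
    ⟨0, h0⟩ cont.continuousOn
  refine ⟨ψ, fun ψ' => ?_⟩
  obtain ⟨i0, hi0⟩ := Finite.exists_min ψ'
  refine le_trans ?_ (shift ψ' (ψ' i0))
  by_cases hle : ∀ j, ψ' j - ψ' i0 ≤ M
  · exact hψ ⟨fun j => sub_nonneg.mpr (hi0 j), hle⟩
  · push Not at hle
    obtain ⟨j, hj⟩ := hle
    have h1 := coer (fun i => ψ' i - ψ' i0) i0 (by simp) (fun i => sub_nonneg.mpr (hi0 i)) j
    have h2 : dualJ ρ g m w ψ ≤ dualJ ρ g m w 0 := hψ h0
    have h3 : |dualJ ρ g m w 0 + C| ≤ m j0 * (ψ' j - ψ' i0) := by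
      rw [hM, div_lt_iff₀ (hm.pos j0)] at hj
      linarith
    linarith [le_abs_self (dualJ ρ g m w 0 + C)]

lemma Src.exists_opt (hS : Src ρ K a) (hg : Dens ρ K g) (hm : Wt m) (w : ι → E) :
    ∃ ψ, ∀ i, ∫ x, cell m w ψ i x * g x ∂ρ = m i := by
  obtain ⟨ψ, hψ⟩ := hS.exists_min hg hm w
  refine ⟨ψ, ?_⟩
  have hgc := hg.cont
  have hcc := hm.continuous_cell w ψ
  set P := fun i => ∫ x, cell m w ψ i x * g x ∂ρ with hP
  have hP0 : ∀ i, 0 < P i := fun i => hS.pos (by have := hcc i; fun_prop) fun x hx =>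
    mul_pos (hm.gibbs_pos _ i) (by linarith [hg.lo x hx])
  have hPs : ∑ i, P i = 1 := by
    rw [hS.sum_mul hcc (fun x => hm.sum_gibbs _) hgc, hg.mass]
  set t := fun i => Real.log (P i / m i) with ht
  have h1 := hψ (fun i => ψ i + t i)
  have h2 : ∫ x, lse m w (fun i => ψ i + t i) x * g x ∂ρ
      ≤ ∫ x, lse m w ψ x * g x + (∑ i, (m i / P i) * (cell m w ψ i x * g x) - g x) ∂ρ := by
    have c1 := hm.continuous_lse w ψ
    have c2 := hm.continuous_lse w (fun i => ψ i + t i)
    apply hS.mono (by fun_prop) (by fun_prop)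
    intro x hx
    have h3 := hm.upper (expo w ψ x) (expo w (fun i => ψ i + t i) x)
    have h4 : ∀ i, Real.exp (expo w (fun i => ψ i + t i) x i - expo w ψ x i) = m i / P i := by
      intro i
      have : expo w (fun i => ψ i + t i) x i - expo w ψ x i = -t i := by simp only [expo]; ring
      rw [this, Real.exp_neg, ht, Real.exp_log (div_pos (hP0 i) (hm.pos i)), inv_div]
    simp only [h4] at h3
    have h5 : ∑ i, (m i / P i) * (cell m w ψ i x * g x)
        = (∑ i, gibbs m (expo w ψ x) i * (m i / P i)) * g x := by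
      rw [Finset.sum_mul]
      apply Finset.sum_congr rfl
      intro i _
      simp only [cell]; ring
    rw [h5]
    have h6 : 0 ≤ g x := by linarith [hg.lo x hx]
    have := mul_le_mul_of_nonneg_right h3 h6
    unfold lse
    linarith
  have c1 := hm.continuous_lse w ψ
  rw [hS.add (by fun_prop) (by fun_prop), hS.sub (by fun_prop) (by fun_prop),
    hS.sum (fun i => by have := hcc i; fun_prop), hg.mass] at h2
  have h7 : ∑ i, ∫ x, (m i / P i) * (cell m w ψ i x * g x) ∂ρ = 1 := by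
    rw [← hm.sum]
    apply Finset.sum_congr rfl
    intro i _
    rw [integral_const_mul]
    exact div_mul_cancel₀ _ (hP0 i).ne'
  rw [h7] at h2
  unfold dualJ at h1
  simp only [mul_add, Finset.sum_add_distrib] at h1
  have h8 : 0 ≤ ∑ i, m i * t i := by linarith
  have h9 : ∀ i, 0 ≤ P i - m i - m i * t i := by
    intro i
    have := Real.log_le_sub_one_of_pos (div_pos (hP0 i) (hm.pos i))
    have h10 := mul_le_mul_of_nonneg_left this (hm.pos i).le
    have h11 : m i * (P i / m i - 1) = P i - m i := by have := (hm.pos i).ne'; field_simp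
    simp only [ht]
    linarith
  have h10 : ∑ i, (P i - m i - m i * t i) = 0 := by
    apply le_antisymm _ (Finset.sum_nonneg fun i _ => h9 i)
    simp only [Finset.sum_sub_distrib, hPs, hm.sum]
    linarith
  rw [Finset.sum_eq_zero_iff_of_nonneg (fun i _ => h9 i)] at h10
  intro i
  have h11 := h10 i (Finset.mem_univ i)
  by_contra hne
  have h12 : P i / m i ≠ 1 := by
    intro h
    apply hne
    have := (hm.pos i).ne'
    field_simp at h
    exact h
  have := Real.log_lt_sub_one_of_pos (div_pos (hP0 i) (hm.pos i)) h12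
  have h13 := mul_lt_mul_of_pos_left this (hm.pos i)
  have h14 : m i * (P i / m i - 1) = P i - m i := by have := (hm.pos i).ne'; field_simp
  simp only [ht] at h11
  linarith

lemma Src.subgrad (hS : Src ρ K a) (hg : Dens ρ K g) (hm : Wt m) {w : ι → E} {ψ : ι → ℝ}
    (hψ : ∀ i, ∫ x, cell m w ψ i x * g x ∂ρ = m i) (w' : ι → E) (ψ' : ι → ℝ) (t : ℝ) (v : ι → E)
    (hw : ∀ i, w' i = w i + t • v i) :
    dualJ ρ g m w ψ + t * ∑ i, ∫ x, cell m w ψ i x * g x * ⟪x, v i⟫ ∂ρ ≤ dualJ ρ g m w' ψ' := by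
  have hgc := hg.cont
  have hcc := hm.continuous_cell w ψ
  have c1 := hm.continuous_lse w ψ
  have c2 := hm.continuous_lse w' ψ'
  have h2 : ∫ x, lse m w ψ x * g x + ∑ i, (t * (cell m w ψ i x * g x * ⟪x, v i⟫)
        - (ψ' i - ψ i) * (cell m w ψ i x * g x)) ∂ρ ≤ ∫ x, lse m w' ψ' x * g x ∂ρ := by
    apply hS.mono (by fun_prop) (by fun_prop)
    intro x hx
    have h3 := hm.jensen (expo w ψ x) (expo w' ψ' x)
    have h6 : 0 ≤ g x := by linarith [hg.lo x hx]
    have h4 := mul_le_mul_of_nonneg_right h3 h6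
    refine le_trans (le_of_eq ?_) h4
    rw [add_mul, Finset.sum_mul]
    congr 1
    apply Finset.sum_congr rfl
    intro i _
    simp only [cell, expo, hw, inner_add_right, inner_smul_right]
    ring
  rw [hS.add (by fun_prop) (by fun_prop), hS.sum (fun i => by have := hcc i; fun_prop)] at h2
  have h5 : ∀ i, ∫ x, (t * (cell m w ψ i x * g x * ⟪x, v i⟫)
        - (ψ' i - ψ i) * (cell m w ψ i x * g x)) ∂ρ
      = t * ∫ x, cell m w ψ i x * g x * ⟪x, v i⟫ ∂ρ - (m i * ψ' i - m i * ψ i) := by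
    intro i
    have := hcc i
    rw [hS.sub (by fun_prop) (by fun_prop), integral_const_mul, integral_const_mul, hψ i]
    ring
  simp only [h5, Finset.sum_sub_distrib, ← Finset.mul_sum] at h2
  unfold dualJ
  linarith

/-- The four-point inequality for the soft dual problem. -/
theorem Src.four_point (hS : Src ρ K a) (hg : Dens ρ K g) (hm : Wt m) (y z : ι → E)
    {lam : ℝ} (hlam : 0 < lam) :
    ∃ ψ₃ ψ₄ : ι → ℝ, ∀ ψ₁ ψ₂ : ι → ℝ,
      dualJ ρ g m y ψ₃ + dualJ ρ (fun _ => 1) m z ψ₄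
        - (17 * (∫ x, (g x - 1) ^ 2 ∂ρ) / lam + 871 * lam * a ^ 2 * ∑ i, m i * ‖z i - y i‖ ^ 2)
      ≤ dualJ ρ g m z ψ₁ + dualJ ρ (fun _ => 1) m y ψ₂ := by
  have h1 := hS.dens_one
  choose og hog using hS.exists_opt hg hm
  choose o1 ho1 using hS.exists_opt h1 hm
  refine ⟨og y, o1 z, fun ψ₁ ψ₂ => ?_⟩
  set X := 17 * (∫ x, (g x - 1) ^ 2 ∂ρ) / lam + 871 * lam * a ^ 2 * ∑ i, m i * ‖z i - y i‖ ^ 2
    with hX
  set v := fun i => z i - y i with hv
  set Gg := fun w => dualJ ρ g m w (og w) with hGg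
  set G1 := fun w => dualJ ρ (fun _ => 1) m w (o1 w) with hG1
  set βg := fun w => ∑ i, ∫ x, cell m w (og w) i x * g x * ⟪x, v i⟫ ∂ρ with hβg
  set β1 := fun w => ∑ i, ∫ x, cell m w (o1 w) i x * 1 * ⟪x, v i⟫ ∂ρ with hβ1
  have tal : ∀ w, β1 w - βg w ≤ X := by
    intro w
    have := hS.talagrand (hm.cells w (o1 w) (og w)) hm.pos hg.cont hg.lo hg.hi
      (fun i => by simpa using ho1 w i) (hog w) (fun i => -v i) hlam
    simp only [inner_neg_right, mul_neg, integral_neg, Finset.sum_neg_distrib, norm_neg] at this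
    simp only [hβ1, hβg, mul_one]
    linarith
  set B := a * ∑ i, m i * ‖v i‖ with hB
  have bnd : ∀ w, |β1 w| ≤ B := by
    intro w
    refine (Finset.abs_sum_le_sum_abs _ _).trans ?_
    rw [hB, Finset.mul_sum]
    apply Finset.sum_le_sum
    intro i _
    have := hm.continuous_cell w (o1 w) i
    refine abs_integral_le_integral_abs.trans ?_
    have e : a * (m i * ‖v i‖) = ∫ x, (a * ‖v i‖) * (cell m w (o1 w) i x * 1) ∂ρ := by
      rw [integral_const_mul, ho1 w i]; ring
    rw [e]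
    apply hS.mono (by fun_prop) (by fun_prop)
    intro x hx
    have l3 : |⟪x, v i⟫| ≤ a * ‖v i‖ :=
      (abs_real_inner_le_norm _ _).trans (by gcongr; exact hS.norm_le x hx)
    have hp : 0 < cell m w (o1 w) i x := hm.gibbs_pos _ _
    rw [mul_one, abs_mul, abs_of_pos hp, mul_comm]
    exact mul_le_mul_of_nonneg_right l3 hp.le
  have main : ∀ n : ℕ, 0 < n → Gg y + G1 z - X - 2 * B / n ≤ Gg z + G1 y := by
    intro n hn
    have hn' : (0 : ℝ) < n := by exact_mod_cast hn
    set W : ℕ → ι → E := fun k i => y i + ((k : ℝ) / n) • v i with hW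
    have step : ∀ k : ℕ, Gg (W 0) - G1 (W 0) + β1 (W 0) / n - k * (X / n)
        ≤ Gg (W k) - G1 (W k) + β1 (W k) / n := by
      intro k
      induction k with
      | zero => simp
      | succ k ih =>
        have s1 := hS.subgrad hg hm (hog (W k)) (W (k + 1)) (og (W (k + 1))) (1 / n) v (by
          intro i
          simp only [hW]
          rw [add_assoc, ← add_smul]
          congr 2
          push_cast; ring)
        have s2 := hS.subgrad h1 hm (ho1 (W (k + 1))) (W k) (o1 (W k)) (-(1 / n)) v (by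
          intro i
          simp only [hW]
          rw [add_assoc, ← add_smul]
          congr 2
          push_cast; ring)
        change Gg (W k) + 1 / n * βg (W k) ≤ Gg (W (k + 1)) at s1
        change G1 (W (k + 1)) + -(1 / n) * β1 (W (k + 1)) ≤ G1 (W k) at s2
        have s3 : (β1 (W k) - βg (W k)) / n ≤ X / n := by gcongr; exact tal _
        push_cast
        have e1 : 1 / (n : ℝ) * βg (W k) = βg (W k) / n := by ring
        have e2 : -(1 / (n : ℝ)) * β1 (W (k + 1)) = -(β1 (W (k + 1)) / n) := by ring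
        rw [sub_div] at s3
        linarith
    have hW0 : W 0 = y := by ext i; simp [hW]
    have hWn : W n = z := by
      ext1 i
      simp only [hW, hv]
      rw [div_self hn'.ne', one_smul]; abel
    have s := step n
    rw [hW0, hWn] at s
    have e1 : (n : ℝ) * (X / n) = X := by field_simp
    have e2 : β1 z / n - β1 y / n ≤ 2 * B / n := by
      rw [← sub_div]; gcongr
      linarith [(abs_le.mp (bnd y)).1, (abs_le.mp (bnd z)).2]
    linarith
  have lim : Gg y + G1 z - X ≤ Gg z + G1 y := by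
    apply le_of_forall_pos_le_add
    intro ε hε
    obtain ⟨n, hn⟩ := exists_nat_gt (2 * B / ε)
    have hB0 : 0 ≤ B := le_trans (abs_nonneg _) (bnd y)
    have hn0 : (0 : ℝ) < n := lt_of_le_of_lt (by positivity) hn
    have := main n (by exact_mod_cast hn0)
    have h3 : 2 * B / n ≤ ε := by
      rw [div_le_iff₀ hn0]
      rw [div_lt_iff₀ hε] at hn
      linarith
    linarith
  have m1 := hS.subgrad hg hm (hog z) z ψ₁ 0 v (by simp)
  have m2 := hS.subgrad h1 hm (ho1 y) y ψ₂ 0 v (by simp)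
  simp only [zero_mul, add_zero] at m1 m2
  simp only [hGg, hG1] at lim
  linarith

end Crest.Agent.R82
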