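import Mathlib

/-!
Abstract properties of the source measure and the weighted Prékopa–Leindler cell inequality.
-/

set_option autoImplicit false

namespace Crest.Agent.R82

open MeasureTheory Set
open scoped RealInnerProductSpace

variable {E : Type*} [NormedAddCommGroup E] [InnerProductSpace ℝ E] [MeasurableSpace E]

/-- What is used about the source measure `ρ` carried by `K ⊆ closedBall 0 a`. -/
structure Src (ρ : Measure E) (K : Set E) (a : ℝ) : Prop where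
  prob : IsProbabilityMeasure ρ
  ae_mem : ∀ᵐ x ∂ρ, x ∈ K
  norm_le : ∀ x ∈ K, ‖x‖ ≤ a
  a_pos : 0 < a
  int : ∀ f : E → ℝ, Continuous f → Integrable f ρ
  pl : ∀ u v w : E → ℝ, Continuous u → Continuous v → Continuous w → (∀ x, 0 ≤ u x) →
    (∀ x, 0 ≤ v x) → (∀ x, 0 ≤ w x) →
    (∀ x ∈ K, ∀ y ∈ K, u x * v y ≤ w ((2 : ℝ)⁻¹ • (x + y)) ^ 2) →
    (∫ x, u x ∂ρ) * (∫ x, v x ∂ρ) ≤ (∫ x, w x ∂ρ) ^ 2

variable {ρ : Measure E} {K : Set E} {a : ℝ}

lemma Src.mono (hS : Src ρ K a) {f g : E → ℝ} (hf : Continuous f) (hg : Continuous g)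
    (h : ∀ x ∈ K, f x ≤ g x) : ∫ x, f x ∂ρ ≤ ∫ x, g x ∂ρ :=
  integral_mono_ae (hS.int f hf) (hS.int g hg) (hS.ae_mem.mono fun x hx => h x hx)

lemma Src.congr (hS : Src ρ K a) {f g : E → ℝ}
    (h : ∀ x ∈ K, f x = g x) : ∫ x, f x ∂ρ = ∫ x, g x ∂ρ :=
  integral_congr_ae (hS.ae_mem.mono fun x hx => h x hx)

lemma Src.const (hS : Src ρ K a) (c : ℝ) : ∫ _x, c ∂ρ = c := by
  have := hS.prob
  simp

lemma Src.add (hS : Src ρ K a) {f g : E → ℝ} (hf : Continuous f) (hg : Continuous g) :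
    ∫ x, f x + g x ∂ρ = ∫ x, f x ∂ρ + ∫ x, g x ∂ρ :=
  integral_add (hS.int f hf) (hS.int g hg)

lemma Src.sub (hS : Src ρ K a) {f g : E → ℝ} (hf : Continuous f) (hg : Continuous g) :
    ∫ x, f x - g x ∂ρ = ∫ x, f x ∂ρ - ∫ x, g x ∂ρ :=
  integral_sub (hS.int f hf) (hS.int g hg)

lemma Src.sum (hS : Src ρ K a) {ι : Type*} [Fintype ι] {f : ι → E → ℝ}
    (hf : ∀ i, Continuous (f i)) : ∫ x, ∑ i, f i x ∂ρ = ∑ i, ∫ x, f i x ∂ρ :=
  integral_finsetSum _ fun i _ => hS.int _ (hf i)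

lemma Src.pos (hS : Src ρ K a) {f : E → ℝ} (hf : Continuous f) (h : ∀ x ∈ K, 0 < f x) :
    0 < ∫ x, f x ∂ρ := by
  have := hS.prob
  rw [integral_pos_iff_support_of_nonneg_ae (hS.ae_mem.mono fun x hx => (h x hx).le) (hS.int f hf)]
  have h1 : ∀ᵐ x ∂ρ, x ∈ Function.support f := hS.ae_mem.mono fun x hx => (h x hx).ne'
  by_contra hcon
  have h0 : ρ (Function.support f) = 0 := by simpa using hcon
  have h2 : ∀ᵐ x ∂ρ, x ∉ Function.support f := measure_eq_zero_iff_ae_notMem.mp h0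
  have h3 : ∀ᵐ x ∂ρ, False := by
    filter_upwards [h1, h2] with x hx hx' using hx' hx
  simp at h3
  exact IsProbabilityMeasure.ne_zero ρ h3

/-- Jensen's inequality for the exponential against a positive continuous weight. -/
lemma Src.jensen_exp (hS : Src ρ K a) {p f : E → ℝ} (hp : Continuous p) (hf : Continuous f)
    (hp0 : ∀ x, 0 < p x) :
    (∫ x, p x ∂ρ) * Real.exp ((∫ x, p x * f x ∂ρ) / ∫ x, p x ∂ρ)
      ≤ ∫ x, p x * Real.exp (f x) ∂ρ := by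
  set M := ∫ x, p x ∂ρ with hM
  set c := (∫ x, p x * f x ∂ρ) / M with hc
  have hM0 : 0 < M := hS.pos hp fun x _ => hp0 x
  have h1 : ∫ x, Real.exp c * ((1 - c) * p x + p x * f x) ∂ρ = M * Real.exp c := by
    rw [integral_const_mul, hS.add (by fun_prop) (by fun_prop), integral_const_mul, ← hM]
    have : ∫ x, p x * f x ∂ρ = c * M := by rw [hc]; field_simp
    rw [this]; ring
  rw [← h1]
  apply hS.mono (by fun_prop) (by fun_prop)
  intro x _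
  have h2 : f x - c + 1 ≤ Real.exp (f x - c) := Real.add_one_le_exp _
  have h3 : Real.exp (f x) = Real.exp c * Real.exp (f x - c) := by
    rw [← Real.exp_add]; congr 1; ring
  rw [h3]
  have h4 : 0 < Real.exp c * p x := mul_pos (Real.exp_pos _) (hp0 x)
  nlinarith [mul_le_mul_of_nonneg_left h2 h4.le]

/-- Cauchy–Schwarz against a positive continuous weight. -/
lemma Src.cauchy (hS : Src ρ K a) {p f : E → ℝ} (hp : Continuous p) (hf : Continuous f)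
    (hp0 : ∀ x, 0 < p x) :
    (∫ x, p x * f x ∂ρ) ^ 2 ≤ (∫ x, p x ∂ρ) * ∫ x, p x * f x ^ 2 ∂ρ := by
  set M := ∫ x, p x ∂ρ with hM
  set A := ∫ x, p x * f x ∂ρ with hA
  set B := ∫ x, p x * f x ^ 2 ∂ρ with hB
  have hM0 : 0 < M := hS.pos hp fun x _ => hp0 x
  have h1 : 0 ≤ ∫ x, p x * (M * f x - A) ^ 2 ∂ρ :=
    integral_nonneg fun x => mul_nonneg (hp0 x).le (sq_nonneg _)
  have h2 : ∫ x, p x * (M * f x - A) ^ 2 ∂ρ
      = ∫ x, (M ^ 2 * (p x * f x ^ 2) - 2 * M * A * (p x * f x)) + A ^ 2 * p x ∂ρ := by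
    congr 1; ext x; ring
  rw [h2, hS.add (by fun_prop) (by fun_prop), hS.sub (by fun_prop) (by fun_prop),
    integral_const_mul, integral_const_mul, integral_const_mul, ← hM, ← hA, ← hB] at h1
  have h3 : 0 ≤ M * (M * B - A ^ 2) := by nlinarith
  have := (mul_nonneg_iff_of_pos_left hM0).mp h3
  linarith

/-- The weighted Prékopa–Leindler inequality on one cell. -/
lemma Src.cell_pl (hS : Src ρ K a) {p p' q f : E → ℝ} (hp : Continuous p) (hp' : Continuous p')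
    (hq : Continuous q) (hf : Continuous f) (hp0 : ∀ x, 0 < p x) (hp'0 : ∀ x, 0 < p' x)
    (hq0 : ∀ x, 0 < q x) (hpq : ∀ x y, p x * p' y ≤ q ((2 : ℝ)⁻¹ • (x + y)) ^ 2)
    {κ L : ℝ} (hκ : 0 < κ) (hL : ∀ x ∈ K, ∀ y ∈ K, f y - f x ≤ L * ‖y - x‖) :
    √((∫ x, p x * Real.exp (-κ * ‖x‖ ^ 2) ∂ρ) * ∫ x, p' x * Real.exp (-κ * ‖x‖ ^ 2) ∂ρ) *
      (1 + ((∫ x, p' x * Real.exp (-κ * ‖x‖ ^ 2) * f x ∂ρ) /
          (∫ x, p' x * Real.exp (-κ * ‖x‖ ^ 2) ∂ρ) -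
        (∫ x, p x * Real.exp (-κ * ‖x‖ ^ 2) * f x ∂ρ) /
          (∫ x, p x * Real.exp (-κ * ‖x‖ ^ 2) ∂ρ)) / 2 - L ^ 2 / (4 * κ))
      ≤ ∫ x, q x * Real.exp (-κ * ‖x‖ ^ 2) ∂ρ := by
  set M := ∫ x, p x * Real.exp (-κ * ‖x‖ ^ 2) ∂ρ with hM
  set M' := ∫ x, p' x * Real.exp (-κ * ‖x‖ ^ 2) ∂ρ with hM'
  set Q := ∫ x, q x * Real.exp (-κ * ‖x‖ ^ 2) ∂ρ with hQ
  set A := ∫ x, p x * Real.exp (-κ * ‖x‖ ^ 2) * f x ∂ρ with hA
  set A' := ∫ x, p' x * Real.exp (-κ * ‖x‖ ^ 2) * f x ∂ρ with hA'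
  have hM0 : 0 < M := hS.pos (by fun_prop) fun x _ => mul_pos (hp0 x) (Real.exp_pos _)
  have hM'0 : 0 < M' := hS.pos (by fun_prop) fun x _ => mul_pos (hp'0 x) (Real.exp_pos _)
  have hQ0 : 0 < Q := hS.pos (by fun_prop) fun x _ => mul_pos (hq0 x) (Real.exp_pos _)
  have j1 := hS.jensen_exp (p := fun x => p x * Real.exp (-κ * ‖x‖ ^ 2)) (f := fun x => - f x)
    (by fun_prop) (by fun_prop) (fun x => mul_pos (hp0 x) (Real.exp_pos _))
  have j2 := hS.jensen_exp (p := fun x => p' x * Real.exp (-κ * ‖x‖ ^ 2)) (f := f)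
    (by fun_prop) (by fun_prop) (fun x => mul_pos (hp'0 x) (Real.exp_pos _))
  have e1 : ∫ x, p x * Real.exp (-κ * ‖x‖ ^ 2) * (-f x) ∂ρ = -A := by
    rw [hA, ← integral_neg]; congr 1; ext x; ring
  rw [e1, ← hM] at j1
  rw [← hM', ← hA'] at j2
  have hpl := hS.pl (fun x => p x * Real.exp (-κ * ‖x‖ ^ 2) * Real.exp (-f x))
    (fun x => p' x * Real.exp (-κ * ‖x‖ ^ 2) * Real.exp (f x))
    (fun x => Real.exp (L ^ 2 / (4 * κ)) * (q x * Real.exp (-κ * ‖x‖ ^ 2)))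
    (by fun_prop) (by fun_prop) (by fun_prop)
    (fun x => by have := hp0 x; positivity) (fun x => by have := hp'0 x; positivity)
    (fun x => by have := hq0 x; positivity) ?_
  · rw [integral_const_mul, ← hQ] at hpl
    have h1 : (M * Real.exp (-A / M)) * (M' * Real.exp (A' / M'))
        ≤ (Real.exp (L ^ 2 / (4 * κ)) * Q) ^ 2 :=
      le_trans (mul_le_mul j1 j2 (by positivity) (le_trans (by positivity) j1)) hpl
    have h2 : (M * Real.exp (-A / M)) * (M' * Real.exp (A' / M'))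
        = (√(M * M') * Real.exp ((A' / M' - A / M) / 2)) ^ 2 := by
      rw [mul_pow, Real.sq_sqrt (by positivity), ← Real.exp_nat_mul]
      have : Real.exp (((2 : ℕ) : ℝ) * ((A' / M' - A / M) / 2))
          = Real.exp (-A / M) * Real.exp (A' / M') := by
        rw [← Real.exp_add]; congr 1; push_cast; ring
      rw [this]; ring
    rw [h2] at h1
    have h3 : √(M * M') * Real.exp ((A' / M' - A / M) / 2) ≤ Real.exp (L ^ 2 / (4 * κ)) * Q :=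
      (pow_le_pow_iff_left₀ (by positivity) (by positivity) two_ne_zero).mp h1
    have h4 : √(M * M') * Real.exp ((A' / M' - A / M) / 2 - L ^ 2 / (4 * κ)) ≤ Q := by
      rw [Real.exp_sub, ← mul_div_assoc, div_le_iff₀ (Real.exp_pos _)]
      linarith
    refine le_trans ?_ h4
    apply mul_le_mul_of_nonneg_left _ (Real.sqrt_nonneg _)
    have := Real.add_one_le_exp ((A' / M' - A / M) / 2 - L ^ 2 / (4 * κ))
    linarith
  · intro x hx y hy
    have h1 := hpq x y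
    have h2 := hL x hx y hy
    have hpar : ‖x‖ ^ 2 + ‖y‖ ^ 2 = 2 * ‖(2 : ℝ)⁻¹ • (x + y)‖ ^ 2 + ‖y - x‖ ^ 2 / 2 := by
      rw [norm_smul, mul_pow, norm_add_sq_real, norm_sub_sq_real, real_inner_comm]
      norm_num
      ring
    have h3 : L * ‖y - x‖ ≤ κ * ‖y - x‖ ^ 2 / 2 + 2 * (L ^ 2 / (4 * κ)) := by
      have : κ * ‖y - x‖ ^ 2 / 2 + 2 * (L ^ 2 / (4 * κ)) - L * ‖y - x‖
          = (κ * ‖y - x‖ - L) ^ 2 / (2 * κ) := by field_simp; ring
      have h5 : 0 ≤ (κ * ‖y - x‖ - L) ^ 2 / (2 * κ) := by positivity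
      linarith
    have h4 : Real.exp (-κ * ‖x‖ ^ 2) * Real.exp (-f x) * (Real.exp (-κ * ‖y‖ ^ 2) * Real.exp (f y))
        ≤ (Real.exp (L ^ 2 / (4 * κ)) * Real.exp (-κ * ‖(2 : ℝ)⁻¹ • (x + y)‖ ^ 2)) ^ 2 := by
      simp only [← Real.exp_add, ← Real.exp_nat_mul]
      apply Real.exp_le_exp.mpr
      push_cast
      have : -κ * ‖x‖ ^ 2 + -κ * ‖y‖ ^ 2
          = -κ * (2 * ‖(2 : ℝ)⁻¹ • (x + y)‖ ^ 2 + ‖y - x‖ ^ 2 / 2) := by rw [← hpar]; ring
      nlinarith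
    calc p x * Real.exp (-κ * ‖x‖ ^ 2) * Real.exp (-f x) *
          (p' y * Real.exp (-κ * ‖y‖ ^ 2) * Real.exp (f y))
        = (p x * p' y) * (Real.exp (-κ * ‖x‖ ^ 2) * Real.exp (-f x) *
          (Real.exp (-κ * ‖y‖ ^ 2) * Real.exp (f y))) := by ring
      _ ≤ q ((2 : ℝ)⁻¹ • (x + y)) ^ 2 *
          (Real.exp (L ^ 2 / (4 * κ)) * Real.exp (-κ * ‖(2 : ℝ)⁻¹ • (x + y)‖ ^ 2)) ^ 2 :=
          mul_le_mul h1 h4 (by positivity) (by positivity)
      _ = _ := by ring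

end Crest.Agent.R82
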