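import Crest.Agent.R82.Src

/-!
A Talagrand-type bound for the barycentres of two families of soft cells with equal masses.
-/

set_option autoImplicit false
set_option linter.unusedSectionVars false

namespace Crest.Agent.R82

open MeasureTheory Set
open scoped RealInnerProductSpace

lemma alg_s_lower {m r r' : ℝ} (hm : 0 < m) (hr : 0 ≤ r) (hr' : 0 ≤ r') (h1 : m / 2 ≤ r ^ 2)
    (h3 : m / 4 ≤ r' ^ 2) : m / 3 ≤ r * r' := by
  have h5 : (m / 2) * (m / 4) ≤ r ^ 2 * r' ^ 2 := mul_le_mul h1 h3 (by positivity) (by positivity)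
  apply le_of_sq_le_sq_of_nonneg_right_aux (by positivity)
  nlinarith
where
  le_of_sq_le_sq_of_nonneg_right_aux {x y : ℝ} (hy : 0 ≤ y) (h : x ^ 2 ≤ y ^ 2) : x ≤ y :=
    le_trans (le_abs_self x) (by simpa [abs_of_nonneg hy] using sq_le_sq.mp h)

lemma alg1 {m N r r' : ℝ} (hm : 0 < m) (hr : 0 ≤ r) (hr' : 0 ≤ r') (h1 : m / 2 ≤ r ^ 2)
    (h2 : r ^ 2 ≤ m) (h3 : m / 4 ≤ r' ^ 2) (h4 : r' ^ 2 ≤ 2 * m) :
    (r - r') ^ 2 / 2 ≤ (N - m) ^ 2 / m + (r * r') * (N / r' ^ 2 - m / r ^ 2) ^ 2 / 2 := by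
  have hs := alg_s_lower hm hr hr' h1 h3
  set s := r * r' with hsdef
  have hs0 : 0 < s := by linarith
  have hr0 : 0 < r ^ 2 := by linarith
  have hr'0 : 0 < r' ^ 2 := by linarith
  set D := N / r' ^ 2 - m / r ^ 2 with hD
  set ε := N - m with hε
  have e1 : m * (r' ^ 2 - r ^ 2) = ε * r ^ 2 - D * s ^ 2 := by
    rw [hD, hε, hsdef, mul_pow]
    generalize r ^ 2 = A at hr0
    generalize r' ^ 2 = B at hr'0
    field_simp; ring
  have hs2 : s ^ 2 ≤ 2 * m ^ 2 := by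
    rw [hsdef, mul_pow]
    nlinarith [mul_le_mul h2 h4 hr'0.le hm.le]
  have e2 : m ^ 2 * (r' ^ 2 - r ^ 2) ^ 2 ≤ m ^ 2 * (2 * ε ^ 2 + 4 * D ^ 2 * s ^ 2) := by
    have a1 : (ε * r ^ 2 - D * s ^ 2) ^ 2 ≤ 2 * (ε * r ^ 2) ^ 2 + 2 * (D * s ^ 2) ^ 2 := by
      nlinarith [sq_nonneg (ε * r ^ 2 + D * s ^ 2)]
    have a2 : (ε * r ^ 2) ^ 2 ≤ ε ^ 2 * m ^ 2 := by
      rw [mul_pow]; gcongr
    have a3 : (D * s ^ 2) ^ 2 ≤ D ^ 2 * s ^ 2 * (2 * m ^ 2) := by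
      have : (D * s ^ 2) ^ 2 = D ^ 2 * s ^ 2 * s ^ 2 := by ring
      rw [this]; gcongr
    calc m ^ 2 * (r' ^ 2 - r ^ 2) ^ 2 = (m * (r' ^ 2 - r ^ 2)) ^ 2 := by ring
      _ = (ε * r ^ 2 - D * s ^ 2) ^ 2 := by rw [e1]
      _ ≤ _ := by nlinarith
  have e3 : (r' ^ 2 - r ^ 2) ^ 2 ≤ 2 * ε ^ 2 + 4 * D ^ 2 * s ^ 2 :=
    le_of_mul_le_mul_left e2 (by positivity)
  have e4 : 4 * s * (r - r') ^ 2 ≤ (r' ^ 2 - r ^ 2) ^ 2 := by
    have : (r' ^ 2 - r ^ 2) ^ 2 = (r + r') ^ 2 * (r - r') ^ 2 := by ring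
    rw [this]
    apply mul_le_mul_of_nonneg_right _ (sq_nonneg _)
    rw [hsdef]; nlinarith [sq_nonneg (r - r')]
  have e5 : ε ^ 2 ≤ 4 * s * (ε ^ 2 / m) := by
    rw [← mul_div_assoc, le_div_iff₀ hm]
    nlinarith [sq_nonneg ε]
  have e6 : 4 * s * ((r - r') ^ 2 / 2) ≤ 4 * s * (ε ^ 2 / m + s * D ^ 2 / 2) := by nlinarith
  exact le_of_mul_le_mul_left e6 (by positivity)

lemma alg2 {m r r' a t c lam : ℝ} (hm : 0 < m) (h2 : r ^ 2 ≤ m)
    (h3 : m / 4 ≤ r' ^ 2) (h4 : r' ^ 2 ≤ 2 * m) (hlam : 0 < lam)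
    (hc : |c| ≤ 2 * a * t * r' ^ 2) :
    (c / r' ^ 2) * (r' ^ 2 - r ^ 2) ≤ 6 * lam * a ^ 2 * (m * t ^ 2) + (r - r') ^ 2 / lam := by
  have hr'0 : 0 < r' ^ 2 := by linarith
  set u := c / r' ^ 2 with hu
  have hu1 : |u| ≤ 2 * a * t := by
    rw [hu, abs_div, abs_of_pos hr'0, div_le_iff₀ hr'0]; exact hc
  have hu2 : u ^ 2 ≤ (2 * a * t) ^ 2 := by
    rw [← sq_abs]; gcongr
  have h5 : (r + r') ^ 2 ≤ 6 * m := by nlinarith [sq_nonneg (r - r')]
  have h6 : u * (r' ^ 2 - r ^ 2) ≤ lam * (u * (r + r')) ^ 2 / 4 + (r - r') ^ 2 / lam := by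
    have : lam * (u * (r + r')) ^ 2 / 4 + (r - r') ^ 2 / lam - u * (r' ^ 2 - r ^ 2)
        = (lam * (u * (r + r')) / 2 + (r - r')) ^ 2 / lam := by field_simp; ring
    have h7 : 0 ≤ (lam * (u * (r + r')) / 2 + (r - r')) ^ 2 / lam := by positivity
    linarith
  have h8 : (u * (r + r')) ^ 2 ≤ (2 * a * t) ^ 2 * (6 * m) := by
    rw [mul_pow]; gcongr
  nlinarith [mul_le_mul_of_nonneg_left h8 hlam.le]

variable {E : Type*} [NormedAddCommGroup E] [InnerProductSpace ℝ E] [MeasurableSpace E]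
variable {ρ : Measure E} {K : Set E} {a : ℝ}

/-- Two families of soft cells and an intermediate family. -/
structure Cells {ι : Type*} [Fintype ι] (p p' q : ι → E → ℝ) : Prop where
  cp : ∀ i, Continuous (p i)
  cp' : ∀ i, Continuous (p' i)
  cq : ∀ i, Continuous (q i)
  p0 : ∀ i x, 0 < p i x
  p'0 : ∀ i x, 0 < p' i x
  q0 : ∀ i x, 0 < q i x
  sp : ∀ x, ∑ i, p i x = 1
  sp' : ∀ x, ∑ i, p' i x = 1
  sq : ∀ x, ∑ i, q i x = 1
  mid : ∀ i x y, p i x * p' i y ≤ q i ((2 : ℝ)⁻¹ • (x + y)) ^ 2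

variable {ι : Type*} [Fintype ι] {p p' q : ι → E → ℝ}

lemma Src.sum_mul (hS : Src ρ K a) {p : ι → E → ℝ} (cp : ∀ i, Continuous (p i))
    (sp : ∀ x, ∑ i, p i x = 1) {f : E → ℝ} (hf : Continuous f) :
    ∑ i, ∫ x, p i x * f x ∂ρ = ∫ x, f x ∂ρ := by
  rw [← hS.sum (fun i => by have := cp i; fun_prop)]
  congr 1; ext x
  rw [← Finset.sum_mul, sp, one_mul]

lemma Src.family_pl (hS : Src ρ K a) (hC : Cells p p' q) {κ : ℝ} (hκ : 0 < κ)
    {f : ι → E → ℝ} (hf : ∀ i, Continuous (f i)) {L : ι → ℝ}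
    (hL : ∀ i, ∀ x ∈ K, ∀ y ∈ K, f i y - f i x ≤ L i * ‖y - x‖) :
    ∑ i, √(∫ x, p i x * Real.exp (-κ * ‖x‖ ^ 2) ∂ρ) * √(∫ x, p' i x * Real.exp (-κ * ‖x‖ ^ 2) ∂ρ) *
      (((∫ x, p' i x * Real.exp (-κ * ‖x‖ ^ 2) * f i x ∂ρ) /
          (∫ x, p' i x * Real.exp (-κ * ‖x‖ ^ 2) ∂ρ) -
        (∫ x, p i x * Real.exp (-κ * ‖x‖ ^ 2) * f i x ∂ρ) /
          (∫ x, p i x * Real.exp (-κ * ‖x‖ ^ 2) ∂ρ)) / 2 - L i ^ 2 / (4 * κ))
      ≤ ∑ i, (√(∫ x, p i x * Real.exp (-κ * ‖x‖ ^ 2) ∂ρ)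
          - √(∫ x, p' i x * Real.exp (-κ * ‖x‖ ^ 2) ∂ρ)) ^ 2 / 2 := by
  have hw : Continuous fun x : E => Real.exp (-κ * ‖x‖ ^ 2) := by fun_prop
  have z1 := hS.sum_mul hC.cp hC.sp hw
  have z2 := hS.sum_mul hC.cp' hC.sp' hw
  have z3 := hS.sum_mul hC.cq hC.sq hw
  set M := fun i => ∫ x, p i x * Real.exp (-κ * ‖x‖ ^ 2) ∂ρ with hM
  set M' := fun i => ∫ x, p' i x * Real.exp (-κ * ‖x‖ ^ 2) ∂ρ with hM'
  set Q := fun i => ∫ x, q i x * Real.exp (-κ * ‖x‖ ^ 2) ∂ρ with hQ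
  have hM0 : ∀ i, 0 ≤ M i := fun i =>
    integral_nonneg fun x => (mul_pos (hC.p0 i x) (Real.exp_pos _)).le
  have hM'0 : ∀ i, 0 ≤ M' i := fun i =>
    integral_nonneg fun x => (mul_pos (hC.p'0 i x) (Real.exp_pos _)).le
  have hz : ∑ i, (Q i - (M i + M' i) / 2) = 0 := by
    rw [Finset.sum_sub_distrib, ← Finset.sum_div, Finset.sum_add_distrib]
    simp only [hM, hM', hQ]
    rw [z1, z2, z3]; ring
  rw [← add_zero (∑ i, (√(M i) - √(M' i)) ^ 2 / 2), ← hz, ← Finset.sum_add_distrib]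
  apply Finset.sum_le_sum
  intro i _
  have h1 := hS.cell_pl (hC.cp i) (hC.cp' i) (hC.cq i) (hf i) (hC.p0 i) (hC.p'0 i) (hC.q0 i)
    (hC.mid i) hκ (hL i)
  rw [Real.sqrt_mul (hM0 i)] at h1
  have h2 := Real.sq_sqrt (hM0 i)
  have h3 := Real.sq_sqrt (hM'0 i)
  simp only [hM, hM', hQ] at h2 h3 ⊢
  nlinarith

lemma exp_lip {s t : ℝ} (hs : s ≤ 1 / 64) (ht : t ≤ 1 / 64) :
    |Real.exp s - Real.exp t| ≤ 2 * |s - t| := by
  have key : ∀ s t : ℝ, s ≤ 1 / 64 → t ≤ s → Real.exp s - Real.exp t ≤ 2 * (s - t) := by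
    intro s t hs hts
    have h1 : Real.exp s ≤ 2 := by
      have := Real.exp_bound_div_one_sub_of_interval' (x := 1 / 64) (by norm_num) (by norm_num)
      have h2 := Real.exp_le_exp.mpr hs
      norm_num at this
      linarith
    have h2 : t - s + 1 ≤ Real.exp (t - s) := Real.add_one_le_exp _
    have h3 : Real.exp t = Real.exp s * Real.exp (t - s) := by
      rw [← Real.exp_add]; congr 1; ring
    have h4 := Real.exp_pos s
    rw [h3]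
    nlinarith
  rcases le_total t s with h | h
  · rw [abs_of_nonneg (sub_nonneg.mpr (Real.exp_le_exp.mpr h)), abs_of_nonneg (sub_nonneg.mpr h)]
    exact key s t hs h
  · rw [abs_sub_comm, abs_sub_comm s t, abs_of_nonneg (sub_nonneg.mpr (Real.exp_le_exp.mpr h)),
      abs_of_nonneg (sub_nonneg.mpr h)]
    exact key t s ht h

lemma exp_le_two {s : ℝ} (hs : s ≤ 1 / 64) : Real.exp s ≤ 2 := by
  have := Real.exp_bound_div_one_sub_of_interval' (x := 1 / 64) (by norm_num) (by norm_num)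
  have h2 := Real.exp_le_exp.mpr hs
  norm_num at this
  linarith

lemma Src.V_le (hS : Src ρ K a) {x : E} (hx : x ∈ K) : 1 / (64 * a ^ 2) * ‖x‖ ^ 2 ≤ 1 / 64 := by
  have h1 := hS.norm_le x hx
  have h2 := hS.a_pos
  have h3 : ‖x‖ ^ 2 ≤ a ^ 2 := by gcongr
  rw [div_mul_eq_mul_div, div_le_div_iff₀ (by positivity) (by positivity)]
  nlinarith

lemma Src.expV_lip (hS : Src ρ K a) {x y : E} (hx : x ∈ K) (hy : y ∈ K) :
    |Real.exp (1 / (64 * a ^ 2) * ‖y‖ ^ 2) - Real.exp (1 / (64 * a ^ 2) * ‖x‖ ^ 2)|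
      ≤ 1 / (16 * a) * ‖y - x‖ := by
  have h1 := hS.norm_le x hx
  have h1' := hS.norm_le y hy
  have h2 := hS.a_pos
  refine (exp_lip (hS.V_le hy) (hS.V_le hx)).trans ?_
  rw [← mul_sub, abs_mul, abs_of_pos (by positivity : 0 < 1 / (64 * a ^ 2)), sq_sub_sq, abs_mul,
    abs_of_nonneg (by positivity : 0 ≤ ‖y‖ + ‖x‖)]
  have h3 : |‖y‖ - ‖x‖| ≤ ‖y - x‖ := abs_norm_sub_norm_le _ _
  have h4 : (‖y‖ + ‖x‖) * |‖y‖ - ‖x‖| ≤ (2 * a) * ‖y - x‖ :=
    mul_le_mul (by linarith) h3 (abs_nonneg _) (by positivity)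
  calc 2 * (1 / (64 * a ^ 2) * ((‖y‖ + ‖x‖) * |‖y‖ - ‖x‖|))
      ≤ 2 * (1 / (64 * a ^ 2) * ((2 * a) * ‖y - x‖)) := by gcongr
    _ = 1 / (16 * a) * ‖y - x‖ := by field_simp; ring

lemma Src.wt_ge (hS : Src ρ K a) {x : E} (hx : x ∈ K) :
    1 / 2 ≤ Real.exp (-(1 / (64 * a ^ 2)) * ‖x‖ ^ 2) := by
  have h1 := exp_le_two (hS.V_le hx)
  rw [neg_mul, Real.exp_neg, one_div]
  exact inv_anti₀ (Real.exp_pos _) h1

lemma wt_le (a : ℝ) (x : E) : Real.exp (-(1 / (64 * a ^ 2)) * ‖x‖ ^ 2) ≤ 1 := by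
  rw [Real.exp_le_one_iff, neg_mul, neg_nonpos]
  positivity

lemma wt_mul (a : ℝ) (x : E) : Real.exp (-(1 / (64 * a ^ 2)) * ‖x‖ ^ 2) *
    Real.exp (1 / (64 * a ^ 2) * ‖x‖ ^ 2) = 1 := by
  rw [← Real.exp_add]; simp

/-- The barycentre bound. -/
theorem Src.talagrand (hS : Src ρ K a) (hC : Cells p p' q) {m : ι → ℝ} (hm : ∀ i, 0 < m i)
    {g : E → ℝ} (hg : Continuous g) (hg1 : ∀ x ∈ K, 1 / 2 ≤ g x) (hg2 : ∀ x ∈ K, g x ≤ 2)
    (hP : ∀ i, ∫ x, p i x ∂ρ = m i) (hP' : ∀ i, ∫ x, p' i x * g x ∂ρ = m i) (v : ι → E)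
    {lam : ℝ} (hlam : 0 < lam) :
    ∑ i, ∫ x, p' i x * g x * ⟪x, v i⟫ ∂ρ - ∑ i, ∫ x, p i x * ⟪x, v i⟫ ∂ρ
      ≤ 17 * (∫ x, (g x - 1) ^ 2 ∂ρ) / lam + 871 * lam * a ^ 2 * ∑ i, m i * ‖v i‖ ^ 2 := by
  have ha := hS.a_pos
  set κ := 1 / (64 * a ^ 2) with hκdef
  have hκ : 0 < κ := by positivity
  set η2 := ∫ x, (g x - 1) ^ 2 ∂ρ with hη2
  have cp := hC.cp
  have cp' := hC.cp'
  set M := fun i => ∫ x, p i x * Real.exp (-κ * ‖x‖ ^ 2) ∂ρ with hM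
  set M' := fun i => ∫ x, p' i x * Real.exp (-κ * ‖x‖ ^ 2) ∂ρ with hM'
  set N := fun i => ∫ x, p' i x ∂ρ with hN
  set γ := fun i => ∫ x, p' i x * (g x - 1) ^ 2 ∂ρ with hγ
  have hγsum : ∑ i, γ i = η2 := hS.sum_mul cp' hC.sp' (by fun_prop)
  have hγ0 : ∀ i, 0 ≤ γ i := fun i =>
    integral_nonneg fun x => mul_nonneg (hC.p'0 i x).le (sq_nonneg _)
  have hN1 : ∀ i, N i ≤ 2 * m i := by
    intro i
    have := cp' i
    rw [← hP' i, ← integral_const_mul]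
    apply hS.mono this (by fun_prop)
    intro x hx
    nlinarith [hg1 x hx, hC.p'0 i x]
  have hN2 : ∀ i, m i ≤ 2 * N i := by
    intro i
    have := cp' i
    rw [← hP' i, hN, ← integral_const_mul]
    apply hS.mono (by fun_prop) (by fun_prop)
    intro x hx
    nlinarith [hg2 x hx, hC.p'0 i x]
  have hM1 : ∀ i, m i / 2 ≤ M i := by
    intro i
    have := cp i
    rw [← hP i, ← integral_div]
    apply hS.mono (by fun_prop) (by fun_prop)
    intro x hx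
    nlinarith [hS.wt_ge hx, hC.p0 i x]
  have hM2 : ∀ i, M i ≤ m i := by
    intro i
    have := cp i
    rw [← hP i]
    apply hS.mono (by fun_prop) (by fun_prop)
    intro x hx
    nlinarith [wt_le a x, hC.p0 i x]
  have hM'1 : ∀ i, N i / 2 ≤ M' i := by
    intro i
    have := cp' i
    rw [hN, ← integral_div]
    apply hS.mono (by fun_prop) (by fun_prop)
    intro x hx
    nlinarith [hS.wt_ge hx, hC.p'0 i x]
  have hM'2 : ∀ i, M' i ≤ N i := by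
    intro i
    have := cp' i
    apply hS.mono (by fun_prop) (by fun_prop)
    intro x hx
    nlinarith [wt_le a x, hC.p'0 i x]
  have hM0 : ∀ i, 0 < M i := fun i => by linarith [hM1 i, hm i]
  have hM'0 : ∀ i, 0 < M' i := fun i => by linarith [hM'1 i, hN2 i, hm i]
  set r := fun i => √(M i) with hr
  set r' := fun i => √(M' i) with hr'
  have hr2 : ∀ i, r i ^ 2 = M i := fun i => Real.sq_sqrt (hM0 i).le
  have hr'2 : ∀ i, r' i ^ 2 = M' i := fun i => Real.sq_sqrt (hM'0 i).le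
  have hr0 : ∀ i, 0 ≤ r i := fun i => Real.sqrt_nonneg _
  have hr'0 : ∀ i, 0 ≤ r' i := fun i => Real.sqrt_nonneg _
  have b1 : ∀ i, m i / 2 ≤ r i ^ 2 := fun i => by rw [hr2]; exact hM1 i
  have b2 : ∀ i, r i ^ 2 ≤ m i := fun i => by rw [hr2]; exact hM2 i
  have b3 : ∀ i, m i / 4 ≤ r' i ^ 2 := fun i => by rw [hr'2]; linarith [hM'1 i, hN2 i]
  have b4 : ∀ i, r' i ^ 2 ≤ 2 * m i := fun i => by rw [hr'2]; linarith [hM'2 i, hN1 i]
  have hs : ∀ i, m i / 3 ≤ r i * r' i := fun i => alg_s_lower (hm i) (hr0 i) (hr'0 i) (b1 i) (b3 i)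
  have hs0 : ∀ i, 0 < r i * r' i := fun i => by linarith [hs i, hm i]
  set H := ∑ i, (r i - r' i) ^ 2 / 2 with hH
  -- the general family inequality, for rescaled test functions
  have fam : ∀ (F : ι → E → ℝ) (L c : ι → ℝ), (∀ i, Continuous (F i)) →
      (∀ i, ∀ x ∈ K, ∀ y ∈ K, |F i y - F i x| ≤ L i * ‖y - x‖) →
      ∑ i, r i * r' i * (c i * ((∫ x, p' i x * Real.exp (-κ * ‖x‖ ^ 2) * F i x ∂ρ) / M' i -
        (∫ x, p i x * Real.exp (-κ * ‖x‖ ^ 2) * F i x ∂ρ) / M i) / 2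
          - c i ^ 2 * L i ^ 2 / (4 * κ)) ≤ H := by
    intro F L c hF hL
    have := hS.family_pl hC hκ (f := fun i x => c i * F i x) (fun i => by have := hF i; fun_prop)
      (L := fun i => |c i| * L i) (by
        intro i x hx y hy
        calc c i * F i y - c i * F i x = c i * (F i y - F i x) := by ring
          _ ≤ |c i * (F i y - F i x)| := le_abs_self _
          _ = |c i| * |F i y - F i x| := abs_mul _ _
          _ ≤ |c i| * (L i * ‖y - x‖) := by gcongr; exact hL i x hx y hy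
          _ = _ := by ring)
    refine le_trans (le_of_eq ?_) this
    apply Finset.sum_congr rfl
    intro i _
    have e1 : ∫ x, p' i x * Real.exp (-κ * ‖x‖ ^ 2) * (c i * F i x) ∂ρ
        = c i * ∫ x, p' i x * Real.exp (-κ * ‖x‖ ^ 2) * F i x ∂ρ := by
      rw [← integral_const_mul]; congr 1; ext x; ring
    have e2 : ∫ x, p i x * Real.exp (-κ * ‖x‖ ^ 2) * (c i * F i x) ∂ρ
        = c i * ∫ x, p i x * Real.exp (-κ * ‖x‖ ^ 2) * F i x ∂ρ := by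
      rw [← integral_const_mul]; congr 1; ext x; ring
    simp only [e1, e2, mul_pow, sq_abs]
    ring
  -- step (i): `H ≤ 4 η²`
  have hH4 : H ≤ 4 * η2 := by
    set D := fun i => N i / r' i ^ 2 - m i / r i ^ 2 with hD
    have f1 := fam (fun _ x => Real.exp (κ * ‖x‖ ^ 2)) (fun _ => 1 / (16 * a))
      (fun i => 4 * D i) (fun _ => by fun_prop) (fun _ x hx y hy => hS.expV_lip hx hy)
    have f2 : ∑ i, r i * r' i * D i ^ 2 ≤ H := by
      refine le_trans (le_of_eq ?_) f1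
      apply Finset.sum_congr rfl
      intro i _
      have e1 : ∫ x, p' i x * Real.exp (-κ * ‖x‖ ^ 2) * Real.exp (κ * ‖x‖ ^ 2) ∂ρ = N i := by
        congr 1; ext x; rw [mul_assoc, wt_mul, mul_one]
      have e2 : ∫ x, p i x * Real.exp (-κ * ‖x‖ ^ 2) * Real.exp (κ * ‖x‖ ^ 2) ∂ρ = m i := by
        rw [← hP i]; congr 1; ext x; rw [mul_assoc, wt_mul, mul_one]
      rw [e1, e2, ← hr2, ← hr'2]
      change _ = r i * r' i * (4 * D i * D i / 2 - _)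
      rw [hκdef]
      field_simp
      ring
    have f3 : ∀ i, (N i - m i) ^ 2 / m i ≤ 2 * γ i := by
      intro i
      have := cp' i
      have c1 := hS.cauchy (f := fun x => g x - 1) this (by fun_prop) (hC.p'0 i)
      have c2 : ∫ x, p' i x * (g x - 1) ∂ρ = m i - N i := by
        rw [← hP' i, hN, ← hS.sub (by fun_prop) (by fun_prop)]
        congr 1; ext x; ring
      rw [c2] at c1
      rw [div_le_iff₀ (hm i)]
      change _ ≤ N i * γ i at c1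
      nlinarith [hN1 i, hγ0 i]
    have f4 : H ≤ ∑ i, (2 * γ i + r i * r' i * D i ^ 2 / 2) := by
      apply Finset.sum_le_sum
      intro i _
      have := alg1 (N := N i) (hm i) (hr0 i) (hr'0 i) (b1 i) (b2 i) (b3 i) (b4 i)
      linarith [f3 i]
    rw [Finset.sum_add_distrib, ← Finset.mul_sum, ← Finset.sum_div, hγsum] at f4
    linarith
  -- step (ii)
  set b := fun i => ∫ x, p i x * ⟪x, v i⟫ ∂ρ with hb
  set c := fun i => ∫ x, p' i x * ⟪x, v i⟫ ∂ρ with hc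
  set D := fun i => c i / M' i - b i / M i with hD
  have g1 := fam (fun i x => ⟪x, v i⟫ * Real.exp (κ * ‖x‖ ^ 2)) (fun i => 3 * ‖v i‖)
    (fun i => lam * M i / (r i * r' i)) (fun _ => by fun_prop) (by
      intro i x hx y hy
      have l1 := hS.expV_lip hx hy
      have l2 := exp_le_two (hS.V_le hy)
      have l3 : |⟪x, v i⟫| ≤ a * ‖v i‖ :=
        (abs_real_inner_le_norm _ _).trans (by gcongr; exact hS.norm_le x hx)
      have l4 : |⟪y - x, v i⟫| ≤ ‖y - x‖ * ‖v i‖ := abs_real_inner_le_norm _ _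
      have l5 : ⟪y, v i⟫ * Real.exp (κ * ‖y‖ ^ 2) - ⟪x, v i⟫ * Real.exp (κ * ‖x‖ ^ 2)
          = ⟪y - x, v i⟫ * Real.exp (κ * ‖y‖ ^ 2)
            + ⟪x, v i⟫ * (Real.exp (κ * ‖y‖ ^ 2) - Real.exp (κ * ‖x‖ ^ 2)) := by
        rw [inner_sub_left]; ring
      rw [l5]
      refine (abs_add_le _ _).trans ?_
      rw [abs_mul, abs_mul, abs_of_pos (Real.exp_pos _)]
      have l6 : |⟪y - x, v i⟫| * Real.exp (κ * ‖y‖ ^ 2) ≤ ‖y - x‖ * ‖v i‖ * 2 := by gcongr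
      have l7 : |⟪x, v i⟫| * |Real.exp (κ * ‖y‖ ^ 2) - Real.exp (κ * ‖x‖ ^ 2)|
          ≤ (a * ‖v i‖) * (1 / (16 * a) * ‖y - x‖) := by gcongr
      have l8 : (a * ‖v i‖) * (1 / (16 * a) * ‖y - x‖) = ‖y - x‖ * ‖v i‖ / 16 := by
        field_simp
      have l9 : 0 ≤ ‖y - x‖ * ‖v i‖ := by positivity
      nlinarith)
  have g2 : ∑ i, (lam * (M i * D i) / 2 - 432 * lam ^ 2 * a ^ 2 * (m i * ‖v i‖ ^ 2)) ≤ H := by
    refine le_trans ?_ g1
    apply Finset.sum_le_sum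
    intro i _
    have e1 : ∫ x, p' i x * Real.exp (-κ * ‖x‖ ^ 2) * (⟪x, v i⟫ * Real.exp (κ * ‖x‖ ^ 2)) ∂ρ
        = c i := by
      congr 1; ext x
      have := wt_mul a x
      calc _ = p' i x * ⟪x, v i⟫ * (Real.exp (-κ * ‖x‖ ^ 2) * Real.exp (κ * ‖x‖ ^ 2)) := by ring
        _ = _ := by rw [hκdef, this, mul_one]
    have e2 : ∫ x, p i x * Real.exp (-κ * ‖x‖ ^ 2) * (⟪x, v i⟫ * Real.exp (κ * ‖x‖ ^ 2)) ∂ρ
        = b i := by
      congr 1; ext x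
      have := wt_mul a x
      calc _ = p i x * ⟪x, v i⟫ * (Real.exp (-κ * ‖x‖ ^ 2) * Real.exp (κ * ‖x‖ ^ 2)) := by ring
        _ = _ := by rw [hκdef, this, mul_one]
    rw [e1, e2]
    have hs0i := hs0 i
    have e3 : r i * r' i * (lam * M i / (r i * r' i) * (c i / M' i - b i / M i) / 2
        - (lam * M i / (r i * r' i)) ^ 2 * (3 * ‖v i‖) ^ 2 / (4 * κ))
        = lam * (M i * D i) / 2 - 144 * lam ^ 2 * a ^ 2 * (M i ^ 2 / (r i * r' i) * ‖v i‖ ^ 2) := by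
      rw [hκdef]
      simp only [hD]
      generalize r i * r' i = s at hs0i
      field_simp
      ring
    rw [e3]
    have e4 : M i ^ 2 / (r i * r' i) ≤ 3 * m i := by
      rw [div_le_iff₀ hs0i]
      nlinarith [hM2 i, hM0 i, hs i, hm i]
    have e5 : M i ^ 2 / (r i * r' i) * ‖v i‖ ^ 2 ≤ 3 * m i * ‖v i‖ ^ 2 := by gcongr
    nlinarith [mul_le_mul_of_nonneg_left e5 (by positivity : 0 ≤ 144 * lam ^ 2 * a ^ 2)]
  have g3 : ∀ i, ∫ x, p' i x * g x * ⟪x, v i⟫ ∂ρ - c i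
      ≤ lam * a ^ 2 * (m i * ‖v i‖ ^ 2) + γ i / (2 * lam) := by
    intro i
    have := cp' i
    have e1 : ∫ x, p' i x * g x * ⟪x, v i⟫ ∂ρ - c i
        ≤ ∫ x, (lam * a ^ 2 * ‖v i‖ ^ 2 / 2) * p' i x + p' i x * (g x - 1) ^ 2 / (2 * lam) ∂ρ := by
      rw [hc, ← hS.sub (by fun_prop) (by fun_prop)]
      apply hS.mono (by fun_prop) (by fun_prop)
      intro x hx
      have l3 : |⟪x, v i⟫| ≤ a * ‖v i‖ :=
        (abs_real_inner_le_norm _ _).trans (by gcongr; exact hS.norm_le x hx)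
      have l4 : ⟪x, v i⟫ ^ 2 ≤ (a * ‖v i‖) ^ 2 := by rw [← sq_abs]; gcongr
      have l5 : (g x - 1) * ⟪x, v i⟫ ≤ lam * ⟪x, v i⟫ ^ 2 / 2 + (g x - 1) ^ 2 / (2 * lam) := by
        have : lam * ⟪x, v i⟫ ^ 2 / 2 + (g x - 1) ^ 2 / (2 * lam) - (g x - 1) * ⟪x, v i⟫
            = (lam * ⟪x, v i⟫ - (g x - 1)) ^ 2 / (2 * lam) := by field_simp; ring
        have h7 : 0 ≤ (lam * ⟪x, v i⟫ - (g x - 1)) ^ 2 / (2 * lam) := by positivity
        linarith
      have l6 : (g x - 1) * ⟪x, v i⟫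
          ≤ lam * a ^ 2 * ‖v i‖ ^ 2 / 2 + (g x - 1) ^ 2 / (2 * lam) := by
        nlinarith [mul_le_mul_of_nonneg_left l4 hlam.le]
      have l7 := mul_le_mul_of_nonneg_left l6 (hC.p'0 i x).le
      calc p' i x * g x * ⟪x, v i⟫ - p' i x * ⟪x, v i⟫ = p' i x * ((g x - 1) * ⟪x, v i⟫) := by ring
        _ ≤ _ := l7
        _ = _ := by ring
    rw [hS.add (by fun_prop) (by fun_prop), integral_const_mul, integral_div] at e1
    change _ ≤ _ * N i + γ i / _ at e1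
    have : lam * a ^ 2 * ‖v i‖ ^ 2 / 2 * N i ≤ lam * a ^ 2 * ‖v i‖ ^ 2 / 2 * (2 * m i) := by
      gcongr; exact hN1 i
    nlinarith
  have g4 : ∀ i, c i - b i ≤ M i * D i
      + (6 * lam * a ^ 2 * (m i * ‖v i‖ ^ 2) + (r i - r' i) ^ 2 / lam) := by
    intro i
    have := cp' i
    have e0 : |c i| ≤ 2 * a * ‖v i‖ * r' i ^ 2 := by
      have e1 : |c i| ≤ ∫ x, (a * ‖v i‖) * p' i x ∂ρ := by
        refine (abs_integral_le_integral_abs).trans ?_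
        apply hS.mono (by fun_prop) (by fun_prop)
        intro x hx
        have l3 : |⟪x, v i⟫| ≤ a * ‖v i‖ :=
          (abs_real_inner_le_norm _ _).trans (by gcongr; exact hS.norm_le x hx)
        rw [abs_mul, abs_of_pos (hC.p'0 i x), mul_comm]
        exact mul_le_mul_of_nonneg_right l3 (hC.p'0 i x).le
      rw [integral_const_mul] at e1
      change _ ≤ _ * N i at e1
      rw [hr'2]
      have : a * ‖v i‖ * N i ≤ a * ‖v i‖ * (2 * M' i) := by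
        gcongr; linarith [hM'1 i]
      linarith
    have e2 := alg2 (hm i) (b2 i) (b3 i) (b4 i) hlam e0
    rw [hr2, hr'2] at e2
    have e3 : c i - b i = M i * D i + c i / M' i * (M' i - M i) := by
      have := (hM0 i).ne'
      have := (hM'0 i).ne'
      simp only [hD]
      field_simp
      ring
    linarith
  have g5 : ∑ i, ∫ x, p' i x * g x * ⟪x, v i⟫ ∂ρ - ∑ i, b i
      ≤ ∑ i, (M i * D i + 7 * lam * a ^ 2 * (m i * ‖v i‖ ^ 2) + γ i / (2 * lam)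
        + (r i - r' i) ^ 2 / 2 * (2 / lam)) := by
    rw [← Finset.sum_sub_distrib]
    apply Finset.sum_le_sum
    intro i _
    have : (r i - r' i) ^ 2 / 2 * (2 / lam) = (r i - r' i) ^ 2 / lam := by field_simp
    linarith [g3 i, g4 i]
  simp only [Finset.sum_add_distrib, Finset.sum_sub_distrib, ← Finset.mul_sum, ← Finset.sum_div,
    ← Finset.sum_mul] at g5 g2
  rw [hγsum] at g5
  set X := ∑ i, M i * D i
  set W := ∑ i, m i * ‖v i‖ ^ 2
  have hH' : (∑ i, (r i - r' i) ^ 2) / 2 = H := by rw [hH, Finset.sum_div]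
  rw [hH'] at g5
  have g6 : X ≤ 2 * H / lam + 864 * lam * a ^ 2 * W := by
    have : lam * X ≤ lam * (2 * H / lam + 864 * lam * a ^ 2 * W) := by
      have : lam * (2 * H / lam) = 2 * H := by field_simp
      nlinarith
    exact le_of_mul_le_mul_left this hlam
  have hη0 : 0 ≤ η2 := integral_nonneg fun x => sq_nonneg _
  have g7 : 2 * H / lam + η2 / (2 * lam) + H * (2 / lam) ≤ 17 * η2 / lam := by
    have : 2 * H / lam + η2 / (2 * lam) + H * (2 / lam) = (4 * H + η2 / 2) / lam := by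
      field_simp; ring
    rw [this]
    gcongr
    linarith
  linarith

end Crest.Agent.R82
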