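import Crest.Agent.R82.Potential
import Crest.Agent.R82.Brenier
import Crest.Agent.R82.GN
import Crest.Agent.Lib.PrekopaLeindler.Basic
import Crest.Prelude.Def_QuadraticTransport

/-!
The uniform probability measure on a convex body satisfies the abstract hypotheses.
-/

set_option autoImplicit false
set_option linter.unusedSectionVars false

namespace Crest.Agent.R82

open MeasureTheory Set Filter Topology
open scoped RealInnerProductSpace NNReal ENNReal
open Crest.AnalysisR.OT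

variable {d : ℕ}

lemma lintegral_enorm_sq {α F : Type*} [MeasurableSpace α] [NormedAddCommGroup F] {μ : Measure α}
    {f : α → F} (hf : Integrable (fun x => ‖f x‖ ^ 2) μ) :
    ∫⁻ x, ‖f x‖ₑ ^ 2 ∂μ = ENNReal.ofReal (∫ x, ‖f x‖ ^ 2 ∂μ) := by
  rw [ofReal_integral_eq_lintegral_ofReal hf (Eventually.of_forall fun x => sq_nonneg _)]
  apply lintegral_congr
  intro x
  rw [ENNReal.ofReal_pow (norm_nonneg _), ofReal_norm]

lemma integral_uniform {K : Set (EuclideanSpace ℝ (Fin d))} (f : EuclideanSpace ℝ (Fin d) → ℝ) :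
    ∫ x, f x ∂(uniformProbOn K) = (volume.real K)⁻¹ * ∫ x in K, f x := by
  rw [uniformProbOn, integral_smul_measure, ENNReal.toReal_inv, smul_eq_mul]
  rfl

lemma ae_uniform {K : Set (EuclideanSpace ℝ (Fin d))} (hK : volume K ≠ ⊤)
    {p : EuclideanSpace ℝ (Fin d) → Prop} :
    (∀ᵐ x ∂(uniformProbOn K), p x) ↔ ∀ᵐ x ∂(volume.restrict K), p x := by
  rw [uniformProbOn]
  exact Measure.ae_ennreal_smul_measure_iff (ENNReal.inv_ne_zero.mpr hK)

lemma prob_uniform {K : Set (EuclideanSpace ℝ (Fin d))} (hK : volume K ≠ ⊤) (hK0 : volume K ≠ 0) :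
    IsProbabilityMeasure (uniformProbOn K) := by
  constructor
  simp [uniformProbOn, ENNReal.inv_mul_cancel hK0 hK]

lemma src_uniform {K : Set (EuclideanSpace ℝ (Fin d))} (hK : IsCompact K) (hKv : Convex ℝ K)
    (hK0 : volume K ≠ 0) {a : ℝ} (ha : 0 < a) (haK : ∀ x ∈ K, ‖x‖ ≤ a) :
    Src (uniformProbOn K) K a := by
  have hKt := hK.measure_lt_top (μ := volume).ne
  have hKm := hK.measurableSet
  refine ⟨prob_uniform hKt hK0, (ae_uniform hKt).mpr (ae_restrict_mem hKm), haK, ha, ?_, ?_⟩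
  · intro f hf
    exact (hf.continuousOn.integrableOn_compact hK).smul_measure (ENNReal.inv_ne_top.mpr hK0)
  · intro u v w hu hv hw hu0 hv0 hw0 H
    have key : ∀ u : EuclideanSpace ℝ (Fin d) → ℝ, Continuous u → (∀ x, 0 ≤ u x) →
        ∫⁻ x, K.indicator (fun x => ENNReal.ofReal (u x)) x = ENNReal.ofReal (∫ x in K, u x) := by
      intro u hu hu0
      rw [lintegral_indicator hKm, ofReal_integral_eq_lintegral_ofReal
        (hu.continuousOn.integrableOn_compact hK) (Eventually.of_forall hu0)]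
    have h1 := Crest.Agent.Lib.PrekopaLeindler.prekopa_leindler
      (f := K.indicator (fun x => ENNReal.ofReal (u x)))
      (g := K.indicator (fun x => ENNReal.ofReal (v x)))
      (h := K.indicator (fun x => ENNReal.ofReal (w x)))
      (hu.measurable.ennreal_ofReal.indicator hKm) (hv.measurable.ennreal_ofReal.indicator hKm)
      (hw.measurable.ennreal_ofReal.indicator hKm) (by
        intro x y
        by_cases hx : x ∈ K
        · by_cases hy : y ∈ K
          · have hm : (2 : ℝ)⁻¹ • (x + y) ∈ K := by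
              rw [smul_add]
              exact hKv hx hy (by norm_num) (by norm_num) (by norm_num)
            rw [indicator_of_mem hx, indicator_of_mem hy, indicator_of_mem hm,
              ← ENNReal.ofReal_mul (hu0 x), ← ENNReal.ofReal_pow (hw0 _)]
            exact ENNReal.ofReal_le_ofReal (H x hx y hy)
          · simp [hy]
        · simp [hx])
    rw [key u hu hu0, key v hv hv0, key w hw hw0,
      ← ENNReal.ofReal_mul (integral_nonneg hu0), ← ENNReal.ofReal_pow (integral_nonneg hw0),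
      ENNReal.ofReal_le_ofReal_iff (sq_nonneg _)] at h1
    simp only [integral_uniform]
    calc _ = (volume.real K)⁻¹ ^ 2 * ((∫ x in K, u x) * ∫ x in K, v x) := by ring
      _ ≤ (volume.real K)⁻¹ ^ 2 * (∫ x in K, w x) ^ 2 := by gcongr
      _ = _ := by ring

lemma scal_uniform {K : Set (EuclideanSpace ℝ (Fin d))} (hK : IsCompact K) (hKv : Convex ℝ K)
    {x₀ : EuclideanSpace ℝ (Fin d)} (hx₀ : x₀ ∈ K) : Scal (uniformProbOn K) x₀ := by
  intro t ht0 ht1
  have hKm := hK.measurableSet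
  set H := fun x : EuclideanSpace ℝ (Fin d) => x₀ + t • (x - x₀) with hH
  have hHm : Measurable H := by
    apply Continuous.measurable; simp only [hH]; fun_prop
  set n := Module.finrank ℝ (EuclideanSpace ℝ (Fin d)) with hn
  refine ⟨Real.toNNReal |(t ^ n)⁻¹|, ?_⟩
  rw [Measure.le_iff]
  intro s hs
  rw [Measure.map_apply hHm hs]
  simp only [uniformProbOn, Measure.smul_apply, Measure.restrict_apply hs,
    Measure.restrict_apply (hHm hs), smul_eq_mul]
  have h1 : H ⁻¹' s ∩ K ⊆ H ⁻¹' (s ∩ K) := by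
    rintro x ⟨hx, hxK⟩
    refine ⟨hx, ?_⟩
    have := hKv hx₀ hxK (by linarith : 0 ≤ 1 - t) ht0.le (by ring)
    convert this using 1
    simp only [hH]
    module
  have h2 : volume (H ⁻¹' (s ∩ K)) = ENNReal.ofReal |(t ^ n)⁻¹| * volume (s ∩ K) := by
    have : H ⁻¹' (s ∩ K) = (fun x => x + -x₀) ⁻¹' ((fun x => t • x) ⁻¹'
        ((fun x => x₀ + x) ⁻¹' (s ∩ K))) := by
      ext x; simp [hH, sub_eq_add_neg]
    rw [this, measure_preimage_add_right, Measure.addHaar_preimage_smul _ ht0.ne',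
      measure_preimage_add]
  calc (volume K)⁻¹ * volume (H ⁻¹' s ∩ K) ≤ (volume K)⁻¹ * volume (H ⁻¹' (s ∩ K)) := by gcongr
    _ = _ := by
      rw [h2, ENNReal.smul_def, smul_eq_mul, ENNReal.ofReal]
      ring

lemma ae_norm_le_of_map {K Y : Set (EuclideanSpace ℝ (Fin d))} (hY : IsCompact Y) {R : ℝ}
    (hR : ∀ y ∈ Y, ‖y‖ ≤ R) {μ : Measure (EuclideanSpace ℝ (Fin d))} (hμ : IsProbabilityOn Y μ)
    {T : EuclideanSpace ℝ (Fin d) → EuclideanSpace ℝ (Fin d)} (hT : Measurable T)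
    (hmap : (uniformProbOn K).map T = μ) : ∀ᵐ x ∂(uniformProbOn K), ‖T x‖ ≤ R := by
  have h1 : ∀ᵐ y ∂μ, y ∈ Y := hμ.2
  rw [← hmap] at h1
  filter_upwards [ae_of_ae_map hT.aemeasurable h1] with x hx using hR _ hx

lemma pot_of_optimal {K : Set (EuclideanSpace ℝ (Fin d))} (hd : 0 < d) (hK : IsCompact K)
    (hKv : Convex ℝ K) (hKi : (interior K).Nonempty) {R : ℝ} (hR : 0 ≤ R)
    {μ : Measure (EuclideanSpace ℝ (Fin d))}
    {T : EuclideanSpace ℝ (Fin d) → EuclideanSpace ℝ (Fin d)}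
    (hT : IsOptimalMap (uniformProbOn K) μ T) (hb : ∀ᵐ x ∂(uniformProbOn K), ‖T x‖ ≤ R) :
    ∃ φ, Pot (volume.restrict K) R T φ := by
  have hKt := hK.measure_lt_top (μ := volume).ne
  have hK0 : volume K ≠ 0 :=
    ((isOpen_interior.measure_pos volume hKi).trans_le (measure_mono interior_subset)).ne'
  obtain ⟨a, ha0, ha⟩ := hK.isBounded.exists_pos_norm_le
  have hS := src_uniform hK hKv hK0 ha0 ha
  have hprob := hS.prob
  apply exists_pot volume hK hKv hKi (e := EuclideanSpace.single ⟨0, hd⟩ (1 : ℝ)) (by simp) hR hT.1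
    ((ae_uniform hKt).mp hb)
  intro τ hτ hmap
  have hmap' : (uniformProbOn K).map τ = uniformProbOn K := by
    rw [uniformProbOn, Measure.map_smul, hmap]
  have hmp : MeasurePreserving τ (uniformProbOn K) (uniformProbOn K) := ⟨hτ, hmap'⟩
  have h1 := hT.2.2 (T ∘ τ) (hT.1.comp hτ) (by rw [← Measure.map_map hT.1 hτ, hmap', hT.2.1])
  have hb' : ∀ᵐ x ∂(uniformProbOn K), ‖(T ∘ τ) x‖ ≤ R := hmp.quasiMeasurePreserving.ae hb
  have expand : ∀ S : EuclideanSpace ℝ (Fin d) → EuclideanSpace ℝ (Fin d), Measurable S →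
      (∀ᵐ x ∂(uniformProbOn K), ‖S x‖ ≤ R) →
      ∫⁻ x, ‖x - S x‖ₑ ^ 2 ∂(uniformProbOn K) = ENNReal.ofReal (∫ x, ‖x‖ ^ 2 ∂(uniformProbOn K)
        - 2 * ∫ x, ⟪x, S x⟫ ∂(uniformProbOn K) + ∫ x, ‖S x‖ ^ 2 ∂(uniformProbOn K)) ∧
      0 ≤ (∫ x, ‖x‖ ^ 2 ∂(uniformProbOn K)
        - 2 * ∫ x, ⟪x, S x⟫ ∂(uniformProbOn K) + ∫ x, ‖S x‖ ^ 2 ∂(uniformProbOn K)) := by
    intro S hSm hSb
    have i1 : Integrable (fun x => ‖x - S x‖ ^ 2) (uniformProbOn K) :=
      hS.int_comp hSm hSb (F := fun p => ‖p.1 - p.2‖ ^ 2) (by fun_prop)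
    have i2 : Integrable (fun x => ⟪x, S x⟫) (uniformProbOn K) :=
      hS.int_comp hSm hSb (F := fun p => ⟪p.1, p.2⟫) (by fun_prop)
    have i3 : Integrable (fun x => ‖S x‖ ^ 2) (uniformProbOn K) :=
      hS.int_comp hSm hSb (F := fun p => ‖p.2‖ ^ 2) (by fun_prop)
    have i4 : Integrable (fun x : EuclideanSpace ℝ (Fin d) => ‖x‖ ^ 2) (uniformProbOn K) :=
      hS.int _ (by fun_prop)
    have i5 : Integrable (fun x : EuclideanSpace ℝ (Fin d) => ‖x‖ ^ 2 - 2 * ⟪x, S x⟫)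
      (uniformProbOn K) := i4.sub (i2.const_mul 2)
    have e : ∫ x, ‖x - S x‖ ^ 2 ∂(uniformProbOn K) = ∫ x, ‖x‖ ^ 2 ∂(uniformProbOn K)
        - 2 * ∫ x, ⟪x, S x⟫ ∂(uniformProbOn K) + ∫ x, ‖S x‖ ^ 2 ∂(uniformProbOn K) := by
      simp only [norm_sub_sq_real]
      rw [integral_add i5 i3, integral_sub i4 (i2.const_mul 2), integral_const_mul]
    rw [lintegral_enorm_sq i1, ← e]
    exact ⟨rfl, integral_nonneg fun x => sq_nonneg _⟩
  obtain ⟨e1, -⟩ := expand T hT.1 hb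
  obtain ⟨e2, e3⟩ := expand (T ∘ τ) (hT.1.comp hτ) hb'
  rw [e1, e2, ENNReal.ofReal_le_ofReal_iff e3] at h1
  have e4 : ∫ x, ‖(T ∘ τ) x‖ ^ 2 ∂(uniformProbOn K) = ∫ x, ‖T x‖ ^ 2 ∂(uniformProbOn K) := by
    conv_rhs => rw [← hmap']
    exact (integral_map hτ.aemeasurable (hT.1.norm.pow_const 2).aestronglyMeasurable).symm
  have h2 : ∫ x, ⟪x, T (τ x)⟫ ∂(uniformProbOn K) ≤ ∫ x, ⟪x, T x⟫ ∂(uniformProbOn K) := by
    simp only [Function.comp] at h1 e4
    linarith
  simp only [integral_uniform] at h2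
  have h3 : 0 < (volume.real K)⁻¹ := inv_pos.mpr (ENNReal.toReal_pos hK0 hKt)
  exact le_of_mul_le_mul_left h2 h3

lemma final_opt {I W A B r D : ℝ} (hr : 0 < r) (hW : 0 ≤ W) (hA : 0 ≤ A) (hB : 0 ≤ B) (hD : 0 ≤ D)
    (h1 : I ≤ D) (h2 : ∀ h, 0 < h → h ≤ r → I ≤ A * W / h ^ 2 + B * h) :
    I ≤ (A + B + D / r) * W ^ (1 / 3 : ℝ) := by
  set ω := W ^ (1 / 3 : ℝ) with hω
  have hω0 : 0 ≤ ω := Real.rpow_nonneg hW _
  have hω3 : ω ^ 3 = W := by
    rw [hω, ← Real.rpow_natCast, ← Real.rpow_mul hW]; norm_num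
  rcases hω0.eq_or_lt with h0 | h0
  · have hW0 : W = 0 := by rw [← hω3, ← h0]; norm_num
    rw [← h0, mul_zero]
    apply le_of_forall_pos_le_add
    intro ε hε
    have := h2 (min r (ε / (B + 1))) (by positivity) (min_le_left _ _)
    rw [hW0] at this
    have h3 : B * min r (ε / (B + 1)) ≤ B * (ε / (B + 1)) := by gcongr; exact min_le_right _ _
    have h4 : B * (ε / (B + 1)) ≤ ε := by
      rw [← mul_div_assoc, div_le_iff₀ (by positivity)]; nlinarith
    simp only [mul_zero, zero_div, zero_add] at this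
    linarith
  · rcases le_total ω r with h | h
    · have := h2 ω h0 h
      have h3 : A * W / ω ^ 2 = A * ω := by rw [← hω3]; field_simp
      have h4 : 0 ≤ D / r * ω := by positivity
      nlinarith
    · have h3 : D ≤ D / r * ω := by
        rw [div_mul_eq_mul_div, le_div_iff₀ hr]; gcongr
      have h4 : 0 ≤ (A + B) * ω := by positivity
      nlinarith

theorem stability (hd : 0 < d) (K : Set (EuclideanSpace ℝ (Fin d))) (hKc : IsCompact K)
    (hKv : Convex ℝ K) (hKi : (interior K).Nonempty) (Y : Set (EuclideanSpace ℝ (Fin d)))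
    (hYc : IsCompact Y) :
    ∃ C : ℝ≥0, ∀ μ ν : Measure (EuclideanSpace ℝ (Fin d)), IsProbabilityOn Y μ →
      IsProbabilityOn Y ν → ∀ Tμ Tν : EuclideanSpace ℝ (Fin d) → EuclideanSpace ℝ (Fin d),
        IsOptimalMap (uniformProbOn K) μ Tμ → IsOptimalMap (uniformProbOn K) ν Tν →
        ∀ π : Measure (EuclideanSpace ℝ (Fin d) × EuclideanSpace ℝ (Fin d)),
          IsPairCoupling μ ν π →
          ∫⁻ x, ‖Tμ x - Tν x‖ₑ ^ 2 ∂(uniformProbOn K) ≤ C * quadCost π ^ (1 / 3 : ℝ) := by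
  have hKt := hKc.measure_lt_top (μ := volume).ne
  have hK0 : volume K ≠ 0 :=
    ((isOpen_interior.measure_pos volume hKi).trans_le (measure_mono interior_subset)).ne'
  have hKr : 0 < volume.real K := ENNReal.toReal_pos hK0 hKt
  obtain ⟨a, ha0, ha⟩ := hKc.isBounded.exists_pos_norm_le
  obtain ⟨R, hR0, hR⟩ := hYc.isBounded.exists_pos_norm_le
  have hS := src_uniform hKc hKv hK0 ha0 ha
  have hprob := hS.prob
  obtain ⟨x₀, hx₀⟩ := id hKi
  obtain ⟨r, hr, hball⟩ := Metric.nhds_basis_closedBall.mem_iff.mp (mem_interior_iff_mem_nhds.mp hx₀)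
  have hx₀K : x₀ ∈ K := interior_subset hx₀
  set n : ℝ := ((Module.finrank ℝ (EuclideanSpace ℝ (Fin d)) : ℕ) : ℝ) with hn
  have hn0 : 0 ≤ n := Nat.cast_nonneg _
  set C := n * 8 * (59228 * a ^ 2) + n * 20 * R ^ 2 * n / r + 4 * R ^ 2 / r with hC
  refine ⟨Real.toNNReal C, ?_⟩
  intro μ ν hμ hν T₀ T₁ hT₀ hT₁ π hπ
  have b0 := ae_norm_le_of_map hYc hR hμ hT₀.1 hT₀.2.1
  have b1 := ae_norm_le_of_map hYc hR hν hT₁.1 hT₁.2.1
  obtain ⟨φ₀, h0⟩ := pot_of_optimal hd hKc hKv hKi hR0.le hT₀ b0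
  obtain ⟨φ₁, h1⟩ := pot_of_optimal hd hKc hKv hKi hR0.le hT₁ b1
  have h0' : Pot (uniformProbOn K) R T₀ φ₀ := ⟨h0.R0, h0.meas, h0.lip, (ae_uniform hKt).mpr h0.good⟩
  have h1' : Pot (uniformProbOn K) R T₁ φ₁ := ⟨h1.R0, h1.meas, h1.lip, (ae_uniform hKt).mpr h1.good⟩
  have hvar := variance_le hS hx₀K (scal_uniform hKc hKv hx₀K) h0' h1'
    (hπ.1.trans hT₀.2.1.symm) (hπ.2.trans hT₁.2.1.symm)
  set W := ∫ p, ‖p.2 - p.1‖ ^ 2 ∂π with hW
  have hW0 : 0 ≤ W := integral_nonneg fun p => sq_nonneg _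
  have hπprob : IsProbabilityMeasure π := by
    constructor
    have h2 := congrArg (fun μ : Measure (EuclideanSpace ℝ (Fin d)) => μ univ) hπ.1
    have := hμ.1
    simpa [Measure.map_apply measurable_fst] using h2
  have hq : quadCost π = ENNReal.ofReal W := by
    have a0 : ∀ᵐ y ∂(π.map Prod.fst), y ∈ Y := by rw [hπ.1]; exact hμ.2
    have a1 : ∀ᵐ y ∂(π.map Prod.snd), y ∈ Y := by rw [hπ.2]; exact hν.2
    rw [quadCost, lintegral_enorm_sq]
    · simp only [hW, norm_sub_rev]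
    · refine Integrable.of_bound (Continuous.aestronglyMeasurable (by fun_prop)) ((2 * R) ^ 2) ?_
      filter_upwards [ae_of_ae_map measurable_fst.aemeasurable a0,
        ae_of_ae_map measurable_snd.aemeasurable a1] with p hp hp'
      rw [Real.norm_of_nonneg (sq_nonneg _)]
      gcongr
      linarith [norm_sub_le p.1 p.2, hR _ hp, hR _ hp']
  have hb : ∀ᵐ x ∂(uniformProbOn K), ‖T₀ x - T₁ x‖ ^ 2 ≤ 4 * R ^ 2 := by
    filter_upwards [b0, b1] with x hx hx'
    have : ‖T₀ x - T₁ x‖ ≤ 2 * R := by linarith [norm_sub_le (T₀ x) (T₁ x)]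
    nlinarith [norm_nonneg (T₀ x - T₁ x)]
  have hI : Integrable (fun x => ‖T₀ x - T₁ x‖ ^ 2) (uniformProbOn K) := by
    refine Integrable.of_bound ((hT₀.1.sub hT₁.1).norm.pow_const 2).aestronglyMeasurable
      (4 * R ^ 2) ?_
    filter_upwards [hb] with x hx
    rwa [Real.norm_of_nonneg (sq_nonneg _)]
  have hfin := final_opt (I := ∫ x, ‖T₀ x - T₁ x‖ ^ 2 ∂(uniformProbOn K)) (W := W)
    (A := n * 8 * (59228 * a ^ 2)) (B := n * 20 * R ^ 2 * n / r) (D := 4 * R ^ 2) hr hW0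
    (by positivity) (by positivity) (by positivity)
    ((integral_mono_ae hI (integrable_const _) hb).trans (by simp)) (by
      intro h hh hhr
      have g1 := gn_norm volume hKc hKv hr hball h0 h1 (∫ x, (φ₁ x - φ₀ x) ∂(uniformProbOn K)) hh hhr
      rw [integral_uniform] at hvar ⊢
      set V := ∫ x in K, (φ₁ x - φ₀ x - ∫ x, (φ₁ x - φ₀ x) ∂(uniformProbOn K)) ^ 2
      rw [← hn] at g1
      calc _ ≤ (volume.real K)⁻¹ * (n * (8 / h ^ 2 * V
            + 20 * R ^ 2 * (n * (h / r) * volume.real K))) := by gcongr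
        _ = n * 8 * ((volume.real K)⁻¹ * V) / h ^ 2 + n * 20 * R ^ 2 * n / r * h := by
            field_simp
        _ ≤ n * 8 * (59228 * a ^ 2 * W) / h ^ 2 + n * 20 * R ^ 2 * n / r * h := by gcongr
        _ = _ := by ring)
  rw [lintegral_enorm_sq hI, hq, ENNReal.ofReal_rpow_of_nonneg hW0 (by norm_num)]
  change _ ≤ ENNReal.ofReal C * _
  rw [← ENNReal.ofReal_mul (by positivity)]
  exact ENNReal.ofReal_le_ofReal hfin

end Crest.Agent.R82
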